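import Crest.Agent.N218.Sk.Hom
import Crest.Agent.N218.Pm.Pc

/-! Row 218 (helper80): `STB` over any abstract invariant. -/

set_option autoImplicit false
set_option linter.unusedSectionVars false
open Set Filter Topology unitInterval

noncomputable section

namespace Crest.Agent.N218.Sk
open Pm C

namespace Stb
variable {k : ℕ} {E E' : Type} [NormedAddCommGroup E] [NormedSpace ℝ E]
  [NormedAddCommGroup E'] [NormedSpace ℝ E']

theorem eig {z : V k E} {a c : ℝ} (ha : 0 < a) (hc : 0 ≤ c) (h : a • z = c • sh k E z)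
    (v : av k E z = 0) : z = 0 := by
  by_contra n
  have e := congrArg norm h
  rw [norm_smul, norm_smul, norm_sh, Real.norm_of_nonneg ha.le, Real.norm_of_nonneg hc] at e
  obtain rfl := mul_right_cancel₀ (norm_ne_zero_iff.2 n) e
  have s : sh k E z = z := (smul_right_injective _ ha.ne' h).symm
  have t : z = cs k E (z 0) := funext fun i => by
    obtain ⟨m, rfl⟩ := ZMod.natCast_zmod_surjective i
    have := sh_pow m z m
    rwa [Function.iterate_fixed s, sub_self] at this
  rw [t, av_cs] at v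
  exact n (by rw [t, v, map_zero])

theorem lin0 {z : V k E} {a c : ℝ} (ha : 0 ≤ a) (hc : 0 ≤ c)
    (h : z - c • sh k E z + a • mn z = 0) (v : av k E z = 0) : z = 0 := by
  have e := congrArg mn h
  rw [mn_add, mn_sub, mn_smul, mn_smul, mn_mn, mn_sh, mn_zero] at e
  have u : mn z = 0 := eig (a := 1 + a) (by positivity) hc
    (by linear_combination (norm := module) e) (av_mn z)
  rw [u] at h
  exact eig one_pos hc (by linear_combination (norm := module) h) v

variable (k) in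
/-- a linear map applied pointwise -/
def pw (B : E →L[ℝ] E) : V k E →L[ℝ] V k E :=
  ContinuousLinearMap.pi fun i => B.comp (ContinuousLinearMap.proj i)

theorem pw_sh (B : E →L[ℝ] E) (z : V k E) : pw k B (sh k E z) = sh k E (pw k B z) := rfl
theorem av_pw (B : E →L[ℝ] E) (z : V k E) : av k E (pw k B z) = B (av k E z) := by
  simp [av_apply, pw]

/-- the straight line from `1 - (1 - ε B) sh + a mn` to `rf B` -/
def H (B : E →L[ℝ] E) (ε a s : ℝ) (z : V k E) : V k E :=
  (1 - s) • (z - (sh k E z - ε • pw k B (sh k E z)) + a • mn z) + s • rf B z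

theorem H_zero {B : E →L[ℝ] E} (hB : ∀ z, B (B z) = z) {ε a s : ℝ} (e0 : 0 < ε) (e1 : ε ≤ 1)
    (ha : 0 ≤ a) (s0 : 0 ≤ s) (s1 : s ≤ 1) {z : V k E} (h : H B ε a s z = 0) : z = 0 := by
  have v : av k E z = 0 := by
    have e := congrArg (av k E) h
    simp only [H, map_add, map_sub, map_smul, av_pw, av_sh, av_mn, av_rf, map_zero] at e
    have : ((1 - s) * ε + s) • B (av k E z) = 0 := by linear_combination (norm := module) e
    rw [← hB (av k E z), (smul_eq_zero.1 this).resolve_left (by nlinarith), map_zero]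
  have bb : ∀ y : V k E, pw k B (pw k B y) = y := fun y => funext fun i => hB _
  rw [H, rf, v, map_zero, sub_zero, map_zero, add_zero] at h
  have h' := congrArg (pw k B) h
  simp only [map_add, map_sub, map_smul, bb, map_zero, comm_mn (pw_sh B)] at h'
  rw [pw_sh] at h h'
  have p : z + pw k B z = 0 := lin0 (a := (1 - s) * a) (c := (1 - s) * (1 - ε))
    (by nlinarith) (by nlinarith)
    (by rw [map_add, mn_add]; linear_combination (norm := module) h + h')
    (by rw [map_add, av_pw, v, map_zero, add_zero])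
  have q : z - pw k B z = 0 := lin0 (a := (1 - s) * a) (c := (1 - s) * (1 + ε))
    (by nlinarith) (by nlinarith)
    (by rw [map_sub, mn_sub]; linear_combination (norm := module) h - h')
    (by rw [map_sub, av_pw, v, map_zero, sub_zero])
  linear_combination (norm := module) (1 / 2 : ℝ) • p + (1 / 2 : ℝ) • q

variable {X A : Type} [TopologicalSpace X] [AddCommGroup A] [FiniteDimensional ℝ E]
  [FiniteDimensional ℝ E']

theorem ec_ok {f : X × E → E} (hf : Continuous f) (c : IsCompact (Ec k univ f).Z) :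
    (Ec k univ f).Ok := by
  have eO : (Ec k univ f).O = {x | mn x.2 ≠ 0} := by ext x; simp [Ec, PM.Ec, Psi]
  refine ⟨eO ▸ isOpen_ne_fun (by fun_prop) continuous_const, fun x a => ?_,
    Continuous.continuousOn ?_, fun x _ => ?_, c, fun x a => a.1⟩
  · rw [eO] at a ⊢
    exact sh_ne a
  · change Continuous fun x : (X × ℝ) × V k E =>
      (fun i => x.2 i - f (x.1.1, x.2 (i - 1))) + Real.exp x.1.2 • mn x.2
    fun_prop
  · funext i
    simp [Ec, PM.Ec, Psi, mn_sh]

/-- **removing a hyperbolic linear factor** -/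
theorem prod (T : Th X A) (hk : 16 ≤ k) {f : X × E → E} (hf : Continuous f)
    (o : (Ec k univ f).Ok) {B : E' →L[ℝ] E'} (hB : ∀ z, B (B z) = z) {ε : ℝ} (e0 : 0 < ε)
    (e1 : ε ≤ 1) :
    (Ec k univ fun x : X × E × E' => (f (x.1, x.2.1), x.2.2 - ε • B x.2.2)).Ok ∧
    Pe (T.pa k (sp (E × E')) (Ec k univ fun x : X × E × E' => (f (x.1, x.2.1), x.2.2 - ε • B x.2.2)))
      (T.pa k (sp E) (Ec k univ f)) := by
  set Q := Ec k univ fun x : X × E × E' => (f (x.1, x.2.1), x.2.2 - ε • B x.2.2)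
  set P := Ec k univ f
  let φ : ((X × ℝ) × I) × V k E' → V k E' := fun x => H B ε (Real.exp x.1.1.2) x.1.2 x.2
  have c : Continuous φ := by
    have : Continuous fun x : ((X × ℝ) × I) × V k E' => rf B x.2 :=
      cont_rf (by fun_prop) continuous_snd
    simp only [φ, H]
    fun_prop
  have e : ∀ b y, φ (b, sh k E' y) = sh k E' (φ (b, y)) := fun b y => by
    simp only [φ, H, map_add, map_sub, map_smul, pw_sh, mn_sh, rf_sh]
  have z : ∀ b y, φ (b, y) = 0 → y = 0 := fun b y =>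
    H_zero hB e0 e1 (Real.exp_pos _).le b.2.2.1 b.2.2.2
  have z' : ∀ b y, φ (b, y) = 0 → ‖y‖ ≤ 0 := fun b y h => (norm_eq_zero.2 (z b y h)).le
  have o0 := o.ad (φ := fun x => φ ((x.1, 0), x.2)) (by fun_prop) (fun b => e (b, 0)) fun b => z' (b, 0)
  have q : ∀ x, (P.ad fun x => φ ((x.1, 0), x.2)).h x = Q.h x := fun x => by
    simp only [φ, H, Icc.coe_zero, sub_zero, one_smul, zero_smul, add_zero]
    rfl
  have s : (P.ad fun x => φ ((x.1, 0), x.2)).O ⊆ Q.O := fun x a => ⟨o0.fr x a, fun _ => trivial⟩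
  have t : Q.Z ⊆ (P.ad fun x => φ ((x.1, 0), x.2)).O := fun x a => ⟨fun b => a.1.1 (by
    have : s2 x.2 = 0 := z _ _ (pr_eq_zero.1 ((q x).trans a.2)).2
    rw [← pr_s (mn x.2), s1_mn, s2_mn, b, this, mn_zero]; rfl), fun _ => trivial⟩
  have oq : Q.Ok := ec_ok (by fun_prop) (by
    convert o0.cp using 1
    exact Set.ext fun x => ⟨fun a => ⟨t a, (q x).trans a.2⟩, fun a => ⟨s a.1, (q x).symm.trans a.2⟩⟩)
  have J := T.iv_pa hk
  let L : E × E' →ₗ[ℝ] E × E' := LinearMap.id.prodMap B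
  have iL : Function.Injective L := Function.injective_id.prodMap (Function.LeftInverse.injective hB)
  refine ⟨oq, Pe.trans (.inl ?_) ((J.rfl' (S := sp (E × E')) L iL o.st0).trans
    (J.st (sp E) (sp E') P o))⟩
  refine (J.gm (S := sp (E × E')) ⟨oq, o0, s, fun x _ => q x, t⟩).trans
    ((J.eqv (sp (E × E')) _ _ (o.ht_ad c e z')).trans (congrArg _ ?_))
  refine congrArg (Pb.mk _) (funext fun x => funext fun i => ?_)
  simp [φ, H, Pb.st, rf, av_pr, L, pr]
end Stb

theorem gf_r {k : ℕ} (hk : 1 ≤ k) (Φ : A.Fam) : Gf k fun p : S11 × Y => fr Φ.r p.1 p.2 := by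
  have H := Φ.ret le_rfl
  obtain ⟨η, n0, hη⟩ := ex_eta (2 ^ k)
  obtain ⟨δ, d0, hd⟩ := H.lip n0
  have u : ∀ x : S11, ‖(x : X)‖ = 1 := fun x => by simp
  have w : ∀ x : S11, ∀ y, Φ.ρ (x, Φ.r (x, y)) ≤ Φ.w := fun x y =>
    (H.half _ y (u x)).trans (by linarith [H.w0])
  have c := H.rs.continuous
  refine Gf.of_yk (by unfold fr; fun_prop) 0 (LA.of_sym (fun _ _ => by simp) (fun v h => h.symm) hk)
    (C := Φ.R) (fun x => by simpa [fr] using Φ.r_bdd _) n0.le hη (fun b z hz i => ?_)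
    fun b y hy => ?_
  · have a : ∀ i, Φ.ρ (b, z i) ≤ Φ.w := fun i => by rw [← sub_add_cancel i 1, hz]; exact w _ _
    have d : ∀ i, 0 < Φ.ρ (b, z i) → Φ.ρ (b, z (i + 1)) < Φ.ρ (b, z i) := fun i p => by
      rw [hz]; exact H.dec _ _ (u b) p (a i)
    have f : ∀ i, Φ.ρ (b, z i) ≤ 0 → z (i + 1) = z i := fun i p => (hz i).trans (H.fix _ _ (u b) p)
    refine f i (le_of_not_gt fun p => ?_)
    exact (Finset.sum_lt_sum (s := Finset.univ) (fun j _ => (le_or_gt _ 0).elim
      (fun q => (congrArg (fun y => Φ.ρ (b, y)) (f j q)).le) fun q => (d j q).le)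
      ⟨i, Finset.mem_univ _, d i p⟩).ne (Equiv.sum_comp (Equiv.addRight 1) fun j => Φ.ρ (b, z j))
  · have hy : Φ.r (b, y) = y := hy
    have r0 : Φ.ρ (b, y) ≤ 0 := le_of_not_gt fun p =>
      (H.dec _ _ (u b) p (hy ▸ w b y)).ne (by rw [hy])
    have t : ∀ᶠ x : S11 × Y in 𝓝 (b, y), ‖((x.1 : X), x.2) - ((b : X), y)‖ < δ :=
      ContinuousAt.eventually_lt (by fun_prop) continuousAt_const (by simpa using d0)
    have t1 : Tendsto (fun x : S11 × Y × Y => (x.1, x.2.1)) (𝓝 (b, y, y)) (𝓝 (b, y)) :=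
      Continuous.tendsto' (by fun_prop) _ _ rfl
    have t2 : Tendsto (fun x : S11 × Y × Y => (x.1, x.2.2)) (𝓝 (b, y, y)) (𝓝 (b, y)) :=
      Continuous.tendsto' (by fun_prop) _ _ rfl
    filter_upwards [t1.eventually t, t2.eventually t] with x a1 a2
    simpa [fr] using hd (b, y) (u b) r0 (x.1, x.2.1) (x.1, x.2.2) (u x.1) (u x.1) a1 a2

/-- **STB** -/
theorem stbt : STBT := by
  intro T k hk Φ M B _ hB ε e0 e1
  have g := gf_r (k := k) (by omega) Φ
  obtain ⟨o, h⟩ := Stb.prod T hk g.ct g.ok hB e0 (by linarith)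
  let e : V k (Fb (Eu M)) ≃L[ℝ] V k (Y × Eu M) :=
    .piCongrRight fun _ => WithLp.prodContinuousLinearEquiv 2 ℝ Y (Eu M)
  refine Pe.trans (.inl (congrArg (T.pa k (sp (Fb (Eu M)))) ?_))
    ((T.pa_cj k (sp (Y × Eu M)) (sp (Fb (Eu M))) e _ hk o fun _ => rfl).trans h)
  refine congrArg₂ Pb.mk (Set.ext fun x => and_congr ?_ Iff.rfl) (funext fun x => funext fun i => ?_)
  · exact (e.map_ne_zero_iff (x := mn x.2)).symm
  · refine Fb.ext ?_ ?_ <;> simp [f0, fm, fr, e, Psi, Ec, PM.Ec, mn]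

end Crest.Agent.N218.Sk
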