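import Crest.Agent.N218.Sk.Top
import Crest.Agent.N218.Pm.Defs

/-! Row 218 (helper40): the second cut, over abstract invariants `Th`. -/

set_option autoImplicit false
open scoped InnerProductSpace Topology ComplexConjugate
open Set

noncomputable section

namespace Crest.Agent.N218.Sk
open C Pm

/-- the invariant of a family of self-maps -/
def ev (T : Th S11 QQ) (k : ℕ) : Ev := fun E _ _ _ f =>
  T.pa k (sp E) (Ec k univ fun p : S11 × E => f p.1 p.2)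

/-- complex Euclidean space -/
abbrev Cn (n : ℕ) : Type := EuclideanSpace ℂ (Fin n)
/-- the `2`-sphere -/
abbrev S2 : Type := Metric.sphere (0 : EuclideanSpace ℝ (Fin 3)) 1
/-- the base of the piece -/
abbrev X22 : Type := S2 × S2
/-- the `3`-sphere -/
abbrev S3 : Type := Metric.sphere (0 : Cn 2) 1

/-- the Hopf map (as a vector) -/
def hfv (a : Cn 2) : EuclideanSpace ℝ (Fin 3) :=
  !₂[2 * (conj (a 0) * a 1).re, 2 * (conj (a 0) * a 1).im, ‖a 0‖ ^ 2 - ‖a 1‖ ^ 2]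

/-- the range of the projector field `π` is `⊕ j, L₁ ^ a j ⊗ L₂ ^ a' j`: orthonormal
`T²`-equivariant frames over `S³ × S³` -/
structure Frm {E J : Type} [NormedAddCommGroup E] [InnerProductSpace ℂ E] [Fintype J]
    [DecidableEq J] (π : X22 → E →L[ℂ] E) (a a' : J → ℤ) (s : J → S3 × S3 → E) : Prop where
  ct : ∀ j, Continuous (s j)
  on : ∀ i j y, ⟪s i y, s j y⟫_ℂ = if i = j then 1 else 0
  sp : ∀ (x : X22) (y : S3 × S3), (x.1 : EuclideanSpace ℝ (Fin 3)) = hfv y.1 →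
    (x.2 : EuclideanSpace ℝ (Fin 3)) = hfv y.2 → ∀ v, π x v = ∑ j, ⟪s j y, v⟫_ℂ • s j y
  eq : ∀ j (y y' : S3 × S3) (t t' : Circle), (y'.1 : Cn 2) = (t : ℂ) • (y.1 : Cn 2) →
    (y'.2 : Cn 2) = (t' : ℂ) • (y.2 : Cn 2) → s j y' = ((t : ℂ) ^ a j * (t' : ℂ) ^ a' j) • s j y

/-- the numerical condition on the weights -/
def Wt {J : Type} [Fintype J] (a a' b b' : J → ℤ) : Prop :=
  ∑ j, a j = ∑ j, b j ∧ ∑ j, a' j = ∑ j, b' j ∧
    ∃ m : ℤ, Odd m ∧ ∑ j, b j * b' j - ∑ j, a j * a' j = 8 * m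

/-- data of the piece -/
def Pcd {n₁ n₂ : ℕ} (D : Data X22 (Cn n₁) (Cn n₂)) : Prop :=
  ∃ (n : ℕ) (a a' b b' : Fin n → ℤ) (s₁ : _) (s₂ : _),
    Frm D.π₁ a a' s₁ ∧ Frm D.π₂ b b' s₂ ∧ Wt a a' b b'

/-- data of the end: constant projections -/
def Trv {n₁ n₂ : ℕ} (D : Data S11 (Cn n₁) (Cn n₂)) : Prop :=
  (∀ x x', D.π₁ x = D.π₁ x') ∧ ∀ x x', D.π₂ x = D.π₂ x'

/-- `a` is, up to sign, the invariant of the coupled path of data with property `Q` -/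
def Red {X : Type} [TopologicalSpace X] (T : Th X QQ) (k : ℕ)
    (Q : ∀ {n₁ n₂ : ℕ}, Data X (Cn n₁) (Cn n₂) → Prop) (a : QQ) : Prop :=
  ∃ (n₁ n₂ : ℕ) (D : Data X (Cn n₁) (Cn n₂)) (c κ R₀ M δ : ℝ), D.Ok c κ R₀ M ∧ Q D ∧ 0 < δ ∧
    (Pe a (T.pa k (sp (Cn n₁ × Cn n₂)) ((D.Y k).F (tau δ))) ∨
      Pe a (T.an k (sp (Cn n₁ × Cn n₂)) ((D.Orb k).F (tau δ))))

/-- the orbit loop of all data with property `Q` has invariant `a` -/
def Val {X : Type} [TopologicalSpace X] (T : Th X QQ) (k : ℕ)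
    (Q : ∀ {n₁ n₂ : ℕ}, Data X (Cn n₁) (Cn n₂) → Prop) (a : QQ) : Prop :=
  ∀ (n₁ n₂ : ℕ) (D : Data X (Cn n₁) (Cn n₂)) (c κ R₀ M δ : ℝ), D.Ok c κ R₀ M → Q D → 0 < δ →
    ((D.Orb k).F (tau δ)).Ok → T.an k (sp (Cn n₁ × Cn n₂)) ((D.Orb k).F (tau δ)) = a

/-- HOM over every theory -/
def HOMT : Prop := ∀ (T : Th S11 QQ) (k : ℕ), 16 ≤ k → HOM (ev T k)
/-- STB over every theory -/
def STBT : Prop := ∀ (T : Th S11 QQ) (k : ℕ), 16 ≤ k → STB (ev T k)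
/-- the reduction at the end, over every theory -/
def ENDT : Prop := ∀ (T : Th S11 QQ) (k : ℕ), 21 ≤ k →
  ∀ (Φ : A.Fam) (M : ℕ) (C : ℝ) (B : Eu M →L[ℝ] Eu M) ξ γ gr zz k' rs,
    Dyn Φ.ρ Φ.r Φ.w C B ξ γ gr zz → Kf Φ.ρ Φ.r Φ.w C ξ γ k' rs → ∃ ε₀ > 0, ∀ ε, 0 < ε → ε ≤ ε₀ →
      Red T k Trv (ev T k _ (fe Φ.r B ξ gr ε))

theorem Pe.tr {a b c : QQ} (h : Pe a b) (h' : Pe b c) : Pe a c := by
  rcases h with rfl | rfl <;> rcases h' with rfl | rfl <;> simp [Pe]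

theorem neg_half : -half = half := by
  rw [neg_eq_iff_add_eq_zero, half, ← QuotientAddGroup.mk_add, QuotientAddGroup.eq_zero_iff]
  exact Al.mem_O2.2 (by norm_num)

theorem red_val {X : Type} [TopologicalSpace X] [CompactSpace X] [T2Space X] (hA : ALG)
    {T : Th X QQ} {k : ℕ} (hk : 21 ≤ k) {Q : ∀ {n₁ n₂ : ℕ}, Data X (Cn n₁) (Cn n₂) → Prop}
    {a b : QQ} (h : Red T k Q a) (h' : Val T k Q b) : Pe a b := by
  obtain ⟨n₁, n₂, D, c, κ, R₀, M, δ, o, q, p, e⟩ := h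
  obtain ⟨-, u, v⟩ := hA X QQ T _ _ D c κ R₀ M k δ o hk p
  rw [← h' n₁ n₂ D c κ R₀ M δ o q p u]
  exact e.elim (fun e => Pe.tr e v) id

theorem end_of (hA : ALG) (hE : ENDT) {T : Th S11 QQ} {k : ℕ} (hk : 21 ≤ k)
    (h7 : Val T k Trv 0) : END (ev T k) := fun Φ M C B ξ γ gr zz k' rs d f => by
  obtain ⟨e, p, h⟩ := hE T k hk Φ M C B ξ γ gr zz k' rs d f
  refine ⟨e, p, fun ε a b => ?_⟩
  rcases red_val hA hk (h ε a b) h7 with t | t <;> simpa using t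

theorem half_of (hA : ALG) {J : Th X22 QQ} {k : ℕ} (hk : 21 ≤ k) {a : QQ} (h : Red J k Pcd a)
    (h6 : Val J k Pcd half) : a = half := by
  rcases red_val hA hk h h6 with t | t
  · exact t
  · rw [t, neg_half]

/-- the example: A4, D3 and PIECE -/
def PX (I : Th S11 QQ) (J : Th X22 QQ) (k : ℕ) : Prop :=
  ∃ (Φ : A.Fam) (a : QQ), Red J k Pcd a ∧ (a = half → ev I k _ (fr Φ.r) = half)

open scoped Manifold ContDiff in
open Crest.GeometryTopology.CotangentSpheres in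
theorem mid (I : Th S11 QQ) (J : Th X22 QQ) (h1 : AC) (h2 : HOMT) (h3 : STBT) (hA : ALG)
    (hE : ENDT) (h7 : Val I 21 Trv 0) (h6 : Val J 21 Pcd half) (hP : PX I J 21) :
    ∃ m : ℕ, Odd m ∧ ∃ ι : Sph 9 × Sph m → Amb m, IsExactLagEmbedding m ι ∧
      ¬ ∃ F : ℝ → Sph 9 × Sph m → Amb m,
          ContMDiff (𝓘(ℝ, ℝ).prod ((𝓡 9).prod (𝓡 m))) 𝓘(ℝ, Amb m) ∞
              (fun p : ℝ × (Sph 9 × Sph m) => F p.1 p.2) ∧
            (∀ s, IsExactLagEmbedding m (F s)) ∧ F 0 = zeroSection m ∧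
            Set.range (F 1) = Set.range ι := by
  obtain ⟨Φ, a, u, v⟩ := hP
  exact top (ev I 21) h1 (h2 I 21 (by norm_num)) (h3 I 21 (by norm_num))
    (end_of hA hE le_rfl h7) ⟨Φ, v (half_of hA le_rfl u h6)⟩

end Crest.Agent.N218.Sk
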