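import Crest.Agent.N218.Sk.Ec0
import Crest.Agent.N218.Pm.Kit1

/-! Row 218 (helper48): good families of self-maps; their canonical problems. -/

set_option autoImplicit false
set_option linter.unusedSectionVars false
open Set Filter Topology

noncomputable section

namespace Crest.Agent.N218.Sk
open Pm

section
variable {B B' : Type} [TopologicalSpace B] [TopologicalSpace B'] {k : ℕ} {E : Type}
  [NormedAddCommGroup E] [NormedSpace ℝ E]

/-- pull-back along a homeomorphism -/
theorem ok_pull {P : Pb B k E} (h : P.Ok) (e : B' ≃ₜ B) : (P.pull e).Ok := by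
  have c : Continuous fun x : B' × V k E => (e x.1, x.2) := by fun_prop
  exact ⟨h.op.preimage c, fun x a => h.inv (e x.1, x.2) a, h.ct.comp c.continuousOn fun _ a => a,
    fun x a => h.eq (e x.1, x.2) a,
    (e.prodCongr (Homeomorph.refl (V k E))).isCompact_preimage.2 h.cp,
    fun x a => h.fr (e x.1, x.2) a⟩

theorem tau_sq : (Equiv.addRight (2 ^ k : Ix k) : Equiv.Perm (Ix k)) * Equiv.addRight (2 ^ k) = 1 := by
  ext i
  have : ((2 ^ (k + 1) : ℕ) : Ix k) = 0 := ZMod.natCast_self _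
  simp only [Equiv.Perm.mul_apply, Equiv.coe_addRight, Equiv.Perm.one_apply]
  push_cast at this
  rw [add_assoc, ← two_mul, ← pow_succ', this, add_zero]

theorem tau_pow : (Equiv.addRight (2 ^ k : Ix k) : Equiv.Perm (Ix k)) =
    Equiv.addRight 1 ^ (2 ^ k) := by
  ext i
  simp

theorem eq_iff {z g : V k E} {F : E → E} : (∀ i, z i - F (z (i - 1)) + g i = 0) ↔
    ∀ i, z (Equiv.addRight 1 i) + g (Equiv.addRight 1 i) = F (z i) := by
  refine ⟨fun h i => ?_, fun h i => ?_⟩
  · have := h (i + 1)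
    rw [add_sub_cancel_right] at this
    rw [← sub_eq_zero, ← this]; simp only [Equiv.coe_addRight]; abel
  · have := h (i - 1)
    simp only [Equiv.coe_addRight, sub_add_cancel] at this
    rw [← this]; abel

variable (k) in
/-- admissible hyperbolic linear maps -/
def LA (A : E →L[ℝ] E) : Prop :=
  ∀ (s : ℝ) (z : V k E), 0 ≤ s → (∀ i, z i - A (z (i - 1)) + s • mn z i = 0) → z = 0

variable (k) in
/-- good families: linear up to a bounded term, and admissible -/
structure Gf (f : B × E → E) : Prop where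
  ct : Continuous f
  lin : ∃ (A : E →L[ℝ] E) (C : ℝ), LA k A ∧ ∀ x, ‖f x - A x.2‖ ≤ C
  adm : ∃ δ > 0, ∀ b (s : ℝ) (z : V k E), 0 ≤ s → ‖s • mn z‖ ≤ δ →
    (∀ i, z i - f (b, z (i - 1)) + s • mn z i = 0) → mn z = 0

theorem Gf.pull {f : B × E → E} (h : Gf k f) {φ : B' → B} (hφ : Continuous φ) :
    Gf k fun x : B' × E => f (φ x.1, x.2) :=
  let ⟨A, C, a, b⟩ := h.lin
  let ⟨δ, c, d⟩ := h.adm
  ⟨h.ct.comp (by fun_prop), ⟨A, C, a, fun x => b (φ x.1, x.2)⟩, δ, c, fun x => d (φ x)⟩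

variable [FiniteDimensional ℝ E] [CompactSpace B]

/-- Yorke's criterion -/
theorem Gf.of_yk {f : B × E → E} (hf : Continuous f) (A : E →L[ℝ] E) (hA : LA k A) {C η : ℝ}
    (hC : ∀ x, ‖f x - A x.2‖ ≤ C) (hη : 0 ≤ η) (hj : (1 + η) ^ 2 ^ k < 3)
    (hp : ∀ b (z : V k E), (∀ i, z (i + 1) = f (b, z i)) → ∀ i, z (i + 1) = z i)
    (hL : Yk.Lf (fun b y => f (b, y)) η) : Gf k f := by
  obtain ⟨δ, d0, hd⟩ := Yk.adm (tau_pow (k := k)) tau_sq hη hj (f := fun b y => f (b, y)) hf A
    (fun z h => hA 0 z le_rfl ((eq_iff (g := fun i => (0 : ℝ) • mn z i)).2 (by simpa using h)))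
    (fun p y => hC (p, y)) hp hL
  exact ⟨hf, ⟨A, C, hA, hC⟩, δ, d0, fun b s z s0 a h =>
    hd b s z s0 a ((eq_iff (g := fun i => s • mn z i) (F := fun y => f (b, y))).1 h)⟩

theorem Gf.ok {f : B × E → E} (h : Gf k f) : (Ec k univ f).Ok := by
  obtain ⟨A, C, hA, hC⟩ := h.lin
  obtain ⟨δ, d0, hd⟩ := h.adm
  have hf := h.ct
  have m : Continuous (mn : V k E → V k E) := Yk.cont_mn (Equiv.addRight (2 ^ k))
  have eO : (Ec k univ f).O = {x | mn x.2 ≠ 0} := by ext x; simp [Ec, PM.Ec, Psi]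
  refine ⟨eO ▸ isOpen_ne_fun (m.comp continuous_snd) continuous_const, fun x a => ?_,
    Continuous.continuousOn ?_, fun x _ => ?_, ?_, fun x a => a.1⟩
  · rw [eO] at a ⊢
    exact sh_ne a
  · change Continuous fun x : (B × ℝ) × V k E =>
      (fun i => x.2 i - f (x.1.1, x.2 (i - 1))) + Real.exp x.1.2 • mn x.2
    fun_prop
  · funext i
    simp [Ec, PM.Ec, Psi, mn_sh]
  · have c := Yk.ec_cpt (σ := Equiv.addRight (1 : Ix k)) (tau_sq (k := k))
      (fun i => add_right_comm _ _ _) (f := fun b y => f (b, y)) hf A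
      (fun s z s0 e => hA s z s0 ((eq_iff (g := fun i => s • mn z i)).2 e)) (fun p y => hC (p, y))
      d0 fun b s z s0 a e =>
        hd b s z s0 a ((eq_iff (g := fun i => s • mn z i) (F := fun y => f (b, y))).2 e)
    convert (Homeomorph.prodAssoc B ℝ (V k E)).isCompact_preimage.2 c using 1
    ext x
    rw [Pb.Z, eO]
    exact and_congr_right fun _ => funext_iff.trans
      (eq_iff (g := fun i => Real.exp x.1.2 • mn x.2 i) (F := fun y => f (x.1.1, y)))

theorem Gf.Adm {f : B × E → E} (h : Gf k f) : (Psi k univ f).Adm :=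
  let ⟨_, d0, hd⟩ := h.adm
  ⟨h.ok, fun x _ e => hd x.1 0 x.2 le_rfl (by simpa using d0.le) fun i => by
    rw [zero_smul, add_zero]; exact congrFun e i⟩

/-- a good family over `B × I` is a homotopy of canonical problems -/
theorem Gf.ht {F : (B × unitInterval) × E → E} (h : Gf k F) {f g : B × E → E}
    (h0 : ∀ x, f x = F ((x.1, 0), x.2)) (h1 : ∀ x, g x = F ((x.1, 1), x.2)) :
    Pb.Ht (Ec k univ f) (Ec k univ g) := by
  obtain rfl := funext h0
  obtain rfl := funext h1
  let e : (B × ℝ) × unitInterval ≃ₜ (B × unitInterval) × ℝ :=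
    { toFun := fun x => ((x.1.1, x.2), x.1.2), invFun := fun x => ((x.1.1, x.2), x.1.2)
      left_inv := fun _ => rfl, right_inv := fun _ => rfl }
  exact ⟨_, ok_pull h.ok e, ⟨rfl, fun _ _ => rfl⟩, rfl, fun _ _ => rfl⟩

theorem Gf.pa {A : Type} [AddCommGroup A] (T : Th B A) (hk : 16 ≤ k) {F : (B × unitInterval) × E → E}
    (h : Gf k F) {f g : B × E → E} (h0 : ∀ x, f x = F ((x.1, 0), x.2))
    (h1 : ∀ x, g x = F ((x.1, 1), x.2)) :
    T.pa k (sp E) (Ec k univ f) = T.pa k (sp E) (Ec k univ g) :=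
  T.pa_eqv k (sp E) _ _ hk (.rel _ _ (.inl (h.ht h0 h1)))
end

section
variable {k : ℕ} {E : Type} [NormedAddCommGroup E] [InnerProductSpace ℝ E]

theorem sym_two {M : E →ₗ[ℝ] E} (hM : M.IsSymmetric) {v : E} :
    ∀ m : ℕ, (M ^ 2 ^ (m + 1)) v = v → M (M v) = v
  | 0, h => h
  | m + 1, h => sym_two hM m <| sub_eq_zero.1 <|
    Ad.sym_pow hM (j := 2 ^ m) one_pos (by
      rw [← pow_succ', map_sub, ← Module.End.mul_apply, ← pow_add, ← two_mul, ← pow_succ', h,
        one_smul, neg_sub])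

/-- symmetric maps without the eigenvalues `± 1` are admissible -/
theorem LA.of_sym {A : E →L[ℝ] E} (hA : (A : E →ₗ[ℝ] E).IsSymmetric)
    (h1 : ∀ v, A (A v) = v → v = 0) (hk : 1 ≤ k) : LA k A := by
  intro s z s0 h
  obtain ⟨k, rfl⟩ := Nat.exists_eq_add_of_le' hk
  have t := Yk.mn_tau (tau_sq (k := k + 1)) z
  have m : ∀ i, mn z i = 0 := fun i => by
    have := Ad.sym_seq hA (j := 2 ^ k) (a := 1 + s) (by positivity)
      (z := fun n : ℕ => mn z (i + n)) (fun n => ?_) (by
        rw [← pow_succ']; push_cast; rw [add_zero]; exact t i)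
    · simpa using this
    have a := h (i + n + 1)
    have b := h (i + n + 1 + 2 ^ (k + 1))
    rw [show mn z (i + n + 1 + 2 ^ (k + 1)) = _ from t _, add_right_comm _ (1 : Ix (k + 1)),
      add_sub_cancel_right] at b
    rw [add_sub_cancel_right] at a
    push_cast
    rw [← add_assoc]
    change (1 + s) • mn z (i + n + 1) = A (mn z (i + n))
    change _ + s • -mn z _ = 0 at b
    have c : mn z (i + n + 1) = (1 / 2 : ℝ) • (z (i + n + 1) - z (i + n + 2 ^ (k + 1) + 1)) := by
      rw [mn, add_right_comm _ (1 : Ix (k + 1))]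
    have d : A (mn z (i + n)) = (1 / 2 : ℝ) • (A (z (i + n)) - A (z (i + n + 2 ^ (k + 1)))) := by
      rw [mn, map_smul, map_sub]
    linear_combination (norm := module) c - d + (1 / 2 : ℝ) • a - (1 / 2 : ℝ) • b
  funext i
  have p : ∀ n : ℕ, ((A : E →ₗ[ℝ] E) ^ n) (z i) = z (i + n) := fun n => by
    induction n with
    | zero => simp
    | succ n ih =>
      have a := h (i + n + 1)
      rw [m, smul_zero, add_zero, add_sub_cancel_right, sub_eq_zero] at a
      rw [pow_succ', Module.End.mul_apply, ih]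
      push_cast
      rw [← add_assoc, a]
  exact h1 _ (sym_two hA (k + 1) (by rw [p, ZMod.natCast_self, add_zero]))
end

end Crest.Agent.N218.Sk
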