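import Crest.Agent.N218.Sk.Ec1
import Crest.Agent.N218.Sk.Mid
import Crest.Agent.N218.C.Fs

/-! Row 218 (helper48): `HOM` over any abstract invariant. -/

set_option autoImplicit false
open scoped InnerProductSpace
open Set Filter Topology

noncomputable section

namespace Crest.Agent.N218.Sk
open Pm C

section
variable {Z : Type} [NormedAddCommGroup Z] [InnerProductSpace ℝ Z]

/-- the linear map `(y, z) ↦ (0, z - ε B z)` -/
def LB (B : Z →L[ℝ] Z) (ε : ℝ) : Fb Z →L[ℝ] Fb Z :=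
  ((WithLp.prodContinuousLinearEquiv 2 ℝ Y Z).symm : Y × Z →L[ℝ] Fb Z).comp
    (((0 : Y × Z →L[ℝ] Y).prod ((1 - ε • B).comp (ContinuousLinearMap.snd ℝ Y Z))).comp
      (WithLp.prodContinuousLinearEquiv 2 ℝ Y Z : Fb Z →L[ℝ] Y × Z))

@[simp] theorem LB_fst (B : Z →L[ℝ] Z) (ε : ℝ) (p : Fb Z) : (LB B ε p).fst = 0 := rfl
@[simp] theorem LB_snd (B : Z →L[ℝ] Z) (ε : ℝ) (p : Fb Z) :
    (LB B ε p).snd = p.snd - ε • B p.snd := rfl

theorem la_LB {k : ℕ} (hk : 1 ≤ k) {B : Z →L[ℝ] Z} (sy : ∀ z z', ⟪B z, z'⟫_ℝ = ⟪z, B z'⟫_ℝ)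
    (sq : ∀ z, B (B z) = z) {ε : ℝ} (e0 : 0 < ε) (e1 : ε ≤ 1) : LA k (LB B ε) := by
  refine LA.of_sym (fun p p' => ?_) (fun v h => Fb.ext (congrArg WithLp.fst h).symm ?_) hk
  · simp [WithLp.prod_inner_apply, inner_sub_left, inner_sub_right, inner_smul_left,
      inner_smul_right, sy]
  · have a : v.snd - ε • B v.snd - ε • B (v.snd - ε • B v.snd) = v.snd := congrArg WithLp.snd h
    rw [map_sub, map_smul, sq] at a
    have b : ε • v.snd = (2 : ℝ) • B v.snd :=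
      smul_right_injective Z e0.ne' (by dsimp only; linear_combination (norm := module) a)
    have c := congrArg B b
    rw [map_smul, map_smul, sq] at c
    have d : (4 - ε ^ 2) • v.snd = 0 := by
      linear_combination (norm := module) -(2 : ℝ) • c - ε • b
    exact (smul_eq_zero.1 d).resolve_left (by nlinarith)
end

theorem ex_eta (j : ℕ) : ∃ η : ℝ, 0 < η ∧ (1 + η) ^ j < 3 := by
  have : ∀ᶠ η : ℝ in 𝓝 0, (1 + η) ^ j < 3 :=
    (by fun_prop : Continuous fun η : ℝ => (1 + η) ^ j).continuousAt.eventually_lt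
      continuousAt_const (by simp)
  have k : ∀ᶠ η in 𝓝[>] (0 : ℝ), 0 < η := self_mem_nhdsWithin
  exact (k.and (nhdsWithin_le_nhds this)).exists

/-- a robust form of `LIP` -/
theorem lip' {ρ : X × Y → ℝ} {r : X × Y → Y} {w R : ℝ} (h : Ret ρ r w R) (C : ℝ) {η : ℝ}
    (hη : 0 < η) : ∃ ε₀ > 0, ∃ δ > 0, ∀ ε, 0 ≤ ε → ε ≤ ε₀ → ∀ (Z : Type) [NormedAddCommGroup Z]
      [InnerProductSpace ℝ Z] [CompleteSpace Z] (ξ : Z → X) (g : Fb Z → ℝ) (gr : Fb Z → Fb Z),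
      One ρ r w C ξ g gr → ∀ u : X × Y, ‖u.1‖ = 1 → ρ u ≤ 0 → ∀ a b,
      ‖(ξ (a - ε • gr a).snd, (a - ε • gr a).fst) - u‖ < δ →
      ‖(ξ (b - ε • gr b).snd, (b - ε • gr b).fst) - u‖ < δ →
      ‖(fm r ξ gr ε a - a) - (fm r ξ gr ε b - b)‖ ≤ η * ‖a - b‖ := by
  obtain ⟨c, hc, c1⟩ : ∃ c : ℝ, C ≤ c ∧ 1 ≤ c := ⟨_, le_max_left _ 1, le_max_right _ _⟩
  obtain ⟨δ, d0, hδ⟩ := h.lip (η := η / (4 * c)) (by positivity)
  refine ⟨min 1 (η / 2) / c, by positivity, δ, d0,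
    fun ε e0 e1 Z _ _ _ ξ g gr o v v1 v2 a b da db => ?_⟩
  rw [le_div_iff₀ (by positivity), le_min_iff] at e1
  have l1 : ‖ε • gr a - ε • gr b‖ ≤ ε * c * ‖a - b‖ := by
    rw [← smul_sub, norm_smul, Real.norm_of_nonneg e0, mul_assoc]
    exact mul_le_mul_of_nonneg_left ((o.lg a b).trans (by gcongr)) e0
  obtain ⟨u, hu⟩ : ∃ u : Fb Z → X × Y, ∀ a, u a = (ξ a.snd, a.fst) := ⟨_, fun _ => rfl⟩
  obtain ⟨m, hm⟩ : ∃ m : Fb Z → Fb Z, ∀ a, m a = a - ε • gr a := ⟨_, fun _ => rfl⟩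
  have un : ∀ a, ‖(u a).1‖ = 1 := fun a => by rw [hu]; exact o.un _
  have l2 : ‖u (m a) - u (m b)‖ ≤ 2 * c * ‖a - b‖ := by
    have k : ‖m a - m b‖ ≤ 2 * ‖a - b‖ := by
      rw [hm, hm, sub_sub_sub_comm]
      refine (norm_sub_le _ _).trans ?_
      linarith [mul_le_mul_of_nonneg_right e1.1 (norm_nonneg (a - b))]
    have k1 : ‖(m a).fst - (m b).fst‖ ≤ ‖m a - m b‖ := WithLp.norm_fst_le _ (m a - m b)
    have k2 : ‖(m a).snd - (m b).snd‖ ≤ ‖m a - m b‖ := WithLp.norm_snd_le _ (m a - m b)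
    have k3 := (o.lx (m a).snd (m b).snd).trans (mul_le_mul hc k2 (norm_nonneg _) (by positivity))
    rw [hu, hu, Prod.mk_sub_mk, Prod.norm_mk, max_le_iff]
    have k4 := mul_le_mul_of_nonneg_left k (zero_le_one.trans c1)
    have k5 := mul_le_mul_of_nonneg_right c1 (norm_nonneg (a - b))
    constructor <;> linarith
  rw [← hm, ← hu] at da db
  have l4 := (hδ v v1 v2 _ _ (un _) (un _) da db).trans
    (mul_le_mul_of_nonneg_left l2 (by positivity))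
  have l5 : ∀ a : Fb Z, fm r ξ gr ε a - a =
      WithLp.toLp 2 (r (u (m a)) - (u (m a)).2, (0 : Z)) - ε • gr a := fun a => by
    rw [hu, hm]
    refine WithLp.ofLp_injective 2 (Prod.ext ?_ ?_) <;> simp [fm, Rt, sub_sub]
  rw [l5, l5, sub_sub_sub_comm]
  refine (norm_sub_le _ _).trans ?_
  rw [← WithLp.toLp_sub, Prod.mk_sub_mk, sub_zero, WithLp.norm_toLp_fst]
  have e : η / (4 * c) * (2 * c * ‖a - b‖) = η / 2 * ‖a - b‖ := by field_simp; ring
  linarith [mul_le_mul_of_nonneg_right e1.2 (norm_nonneg (a - b))]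

theorem Fb_norm_le {Z : Type} [NormedAddCommGroup Z] (p : Fb Z) : ‖p‖ ≤ ‖p.fst‖ + ‖p.snd‖ := by
  refine le_of_sq_le_sq ?_ (by positivity)
  rw [WithLp.prod_norm_sq_eq_of_L2]
  nlinarith [mul_nonneg (norm_nonneg p.fst) (norm_nonneg p.snd)]

/-- the path from `f0` to `fe` is a good family -/
theorem gf_fs {k : ℕ} (hk : 1 ≤ k) (Φ : A.Fam) {M : ℕ} {C : ℝ} {B : Eu M →L[ℝ] Eu M} {ξ γ gr zz}
    (h : Dyn Φ.ρ Φ.r Φ.w C B ξ γ gr zz) : ∃ ε₀ > 0, ∀ ε, 0 < ε → ε ≤ ε₀ →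
      Gf k fun x : (S11 × unitInterval) × Fb (Eu M) =>
        fs Φ.r B ξ gr ε (2 * x.1.2) x.1.1 x.2 := by
  have H := Φ.ret le_rfl
  obtain ⟨η, n0, hη⟩ := ex_eta (2 ^ k)
  obtain ⟨e1, p1, k1⟩ := per _ _ _ _ H C
  obtain ⟨e2, p2, δ, d0, k2⟩ := lip' H C n0
  refine ⟨min (min e1 e2) 1, by positivity, fun ε p q => ?_⟩
  simp only [le_min_iff] at q
  have u : ∀ x : S11, ‖(x : X)‖ = 1 := fun x => by simp
  have m : ∀ s : unitInterval, 2 * (s : ℝ) ∈ Icc (0 : ℝ) 2 := fun s =>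
    ⟨by linarith [s.2.1], by linarith [s.2.2]⟩
  have o := fun b : S11 × unitInterval => h.one_s (u b.1) (m b.2)
  refine Gf.of_yk (cont_fs B H.rs.continuous h.sx.continuous h.sr.continuous (by fun_prop)
    (by fun_prop) (by fun_prop) (by fun_prop)) _ (la_LB hk h.sy h.sq p q.2) (C := Φ.R + ε * C)
    (fun x => ?_) n0.le hη
    (fun b z hz i => (k1 ε p q.1.1 _ _ _ _ (o b) _ (Equiv.addRight 1) z hz i).1) fun b y hy => ?_
  · obtain ⟨a, b⟩ := h.fs_bdd H p.le (u x.1.1) (m x.1.2) x.2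
    exact (Fb_norm_le _).trans (add_le_add (by simpa using a) b)
  · obtain ⟨-, g0, g1⟩ := k1 ε p q.1.1 _ _ _ _ (o b) Unit (Equiv.refl _) (fun _ => y)
      (fun _ => hy.symm) ()
    let mm : (S11 × unitInterval) × Fb (Eu M) → Fb (Eu M) := fun x =>
      x.2 - ε • (Bz B x.2 + max (2 * (x.1.2 : ℝ) - 1) 0 • gr (x.1.1, x.2))
    have c1 : Continuous mm := by
      have := cont_Bz B
      have := h.sr.continuous
      fun_prop
    let uu : (S11 × unitInterval) × Fb (Eu M) → X × Y := fun x =>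
      (ξ (x.1.1, min (2 * (x.1.2 : ℝ)) 1 • (mm x).snd), (mm x).fst)
    have c2 : Continuous uu := by
      have := (WithLp.continuous_fst 2 Y (Eu M)).comp c1
      have := (WithLp.continuous_snd 2 Y (Eu M)).comp c1
      have := h.sx.continuous
      fun_prop
    have e : mm (b, y) = y := by simp only [mm, g0, smul_zero, sub_zero]
    have t : ∀ᶠ x in 𝓝 (b, y), ‖uu x - uu (b, y)‖ < δ :=
      (c2.sub continuous_const).norm.continuousAt.eventually_lt continuousAt_const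
        (by change ‖uu (b, y) - uu (b, y)‖ < δ; rwa [sub_self, norm_zero])
    have t1 : Tendsto (fun x : _ × Fb (Eu M) × Fb (Eu M) => (x.1, x.2.1)) (𝓝 (b, y, y))
      (𝓝 (b, y)) := Continuous.tendsto' (by fun_prop) _ _ rfl
    have t2 : Tendsto (fun x : _ × Fb (Eu M) × Fb (Eu M) => (x.1, x.2.2)) (𝓝 (b, y, y))
      (𝓝 (b, y)) := Continuous.tendsto' (by fun_prop) _ _ rfl
    filter_upwards [t1.eventually t, t2.eventually t] with x a1 a2
    exact k2 ε p.le q.1.2 _ _ _ _ (o x.1) (uu (b, y)) ((o b).un _) (by simpa only [uu, e] using g1)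
      _ _ a1 a2

/-- **HOM** -/
theorem homt : HOMT := by
  intro T k hk Φ M C B ξ γ gr zz h
  obtain ⟨e, e0, he⟩ := gf_fs (k := k) (by omega) Φ h
  refine ⟨e, e0, fun ε p q => ((he ε p q).pa T hk (fun x => ?_) fun x => ?_).symm⟩
  · rw [Icc.coe_zero, mul_zero, h.fs_zero ε (by simp)]
    refine Fb.ext ?_ ?_ <;> simp [f0, fm]
  · rw [Icc.coe_one, mul_one, fs_two]; rfl

end Crest.Agent.N218.Sk
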