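import Crest.Agent.N218.Sk.Ac
import Crest.Agent.N218.A.Lag
import Crest.Agent.N218.Sk.Hom
import Crest.Agent.N218.In.Emb
import Crest.Agent.N218.D7.St2
import Crest.Agent.N218.D3.Defs
import Crest.Agent.N218.P.Shape

/-! Row 218 (helper40): the conditional assembly. -/

set_option autoImplicit false

noncomputable section

namespace Crest.Agent.N218.Sk
open In K

/-- target of block D6 -/
def D6T : Prop := ∀ (g : GEN) (p : PAN) (s : CST) (J : AI 5), D3.SD5 J →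
  Val (i22 g p s J) 21 Pcd half

/-- target of block D3 -/
def D3T : Prop := ∀ (g : GEN) (p : PAN) (s : CST) (I : AI 12) (J : AI 5), D3.SE I → D3.SD5 J →
  P.D3 (i11 g p s I) (i22 g p s J)

/-- target of block D7 -/
def D7T : Prop := ∀ (g : GEN) (p : PAN) (s : CST) (I : AI 12), D3.SE I →
  Val (i11 g p s I) 21 Trv 0

theorem isSph : D7.IsSph e11 :=
  ⟨fun _ => Iff.rfl, fun _ h => Emb.rad_coe h, fun _ _ => rfl⟩

theorem d7t (hA : Pm.ALG) (a1 : D7.DIM) (a2 : D7.ZER) (a3 : D7.RFL) (a4 : D7.DEG) (a5 : D7.PLH)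
    (a6 : D7.ROT) (a7 : D7.LOC) (a8 : D7.SEP) (a9 : D7.NFT) (b1 : D7.CHT) (b2 : D7.ORBJ) : D7T :=
  fun g p s I h => D7.val hA a1 a2 (D7.d7y hA a3 a4 (D7.d7o a5 a6 a7 a8 a9
    (D7.orbt b1 b2 h isSph e11.circ_ok (i11_an g p s I))))

open scoped Manifold ContDiff in
open Crest.GeometryTopology.CotangentSpheres in
theorem fin (hE : INVE) (hD : INVD) (g : GEN) (p : PAN) (s : CST) (h3 : STBT) (hA : Pm.ALG)
    (he : ENDT) (h7 : D7T) (h6 : D6T) (h4 : P.A4) (hP : P.PIECE) (hd : D3T) :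
    ∃ m : ℕ, Odd m ∧ ∃ ι : Sph 9 × Sph m → Amb m, IsExactLagEmbedding m ι ∧
      ¬ ∃ F : ℝ → Sph 9 × Sph m → Amb m,
          ContMDiff (𝓘(ℝ, ℝ).prod ((𝓡 9).prod (𝓡 m))) 𝓘(ℝ, Amb m) ∞
              (fun p : ℝ × (Sph 9 × Sph m) => F p.1 p.2) ∧
            (∀ s, IsExactLagEmbedding m (F s)) ∧ F 0 = zeroSection m ∧
            Set.range (F 1) = Set.range ι := by
  obtain ⟨I, hI⟩ := hE
  obtain ⟨J, hJ⟩ := hD
  exact mid (i11 g p s I) (i22 g p s J) (ac A.lag) homt h3 hA he (h7 g p s I hI) (h6 g p s J hJ)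
    (P.px h4 hP (hd g p s I J hI hJ))

end Crest.Agent.N218.Sk

end
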