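import Crest.Agent.N218.Sk.Sat
import Crest.Agent.N218.Pm.Loop

/-! Row 218 (helper14): `sat : SAT`. -/

set_option autoImplicit false
set_option linter.unusedSectionVars false
open Set unitInterval

noncomputable section

namespace Crest.Agent.N218.Sk
open Pm Pm.Lo

namespace Sa

theorem cp_aux {W F : Type} [TopologicalSpace W] [T2Space W] [NormedAddCommGroup F]
    {C O S T : Set W} {g : W → F} {R : ℝ} (hC : IsCompact C) (hO : C ⊆ O) (hg : ContinuousOn g O)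
    (hS : IsClosed S) (e : ∀ w, w ∈ T ↔ w ∈ O ∧ w ∈ S ∧ ‖g w‖ ≤ R) (h : T ⊆ C) : IsCompact T := by
  have : T = (C ∩ (fun x => ‖g x‖) ⁻¹' Iic R) ∩ S := Set.ext fun w =>
    ⟨fun a => ⟨⟨h a, ((e w).1 a).2.2⟩, ((e w).1 a).2.1⟩, fun a => (e w).2 ⟨hO a.1.1, a.2, a.1.2⟩⟩
  rw [this]
  exact (hC.of_isClosed_subset ((hg.mono hO).norm.preimage_isClosed_of_isClosed hC.isClosed
    isClosed_Iic) inter_subset_left).inter_right hS

section rho
variable {X E : Type} [TopologicalSpace X] [NormedAddCommGroup E] [InnerProductSpace ℂ E]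
  {π : X → E →L[ℂ] E}

/-- scale the complement of the range of `p` -/
def rho (p : E →L[ℂ] E) (s : ℝ) (y : E) : E := p y + s • (y - p y)

theorem rho_zero (p : E →L[ℂ] E) (y : E) : rho p 0 y = p y := by simp [rho]
theorem rho_one (p : E →L[ℂ] E) (y : E) : rho p 1 y = y := by simp [rho]
theorem pi_rho (h : IsPr π) (x : X) (s : ℝ) (y : E) : π x (rho (π x) s y) = π x y := by
  simp [rho, h.id]
theorem rho_rho (h : IsPr π) (x : X) (s t : ℝ) (y : E) :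
    rho (π x) s (rho (π x) t y) = rho (π x) (s * t) y := by
  rw [rho, pi_rho h, rho, rho]; module
theorem rho_sub (h : IsPr π) (x : X) {s : ℝ} (hs : s ∈ Icc (0 : ℝ) 1) (y : E) :
    ‖rho (π x) s y - π x (rho (π x) s y)‖ ≤ ‖y - π x y‖ := by
  rw [pi_rho h, rho, add_sub_cancel_left, norm_smul, Real.norm_of_nonneg hs.1]
  exact mul_le_of_le_one_left (norm_nonneg _) hs.2
theorem rho_le (h : IsPr π) (x : X) {s : ℝ} (hs : s ∈ Icc (0 : ℝ) 1) (y : E) :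
    ‖rho (π x) s y‖ ≤ ‖y‖ := by
  rw [show rho (π x) s y = (1 - s) • π x y + s • y by rw [rho]; module]
  refine (norm_add_le _ _).trans ?_
  rw [norm_smul, norm_smul, Real.norm_of_nonneg hs.1, Real.norm_of_nonneg (sub_nonneg.2 hs.2)]
  nlinarith [pr_le h x y, hs.2]
end rho

variable {X X' E₁ E₂ : Type} [TopologicalSpace X] [TopologicalSpace X'] [NormedAddCommGroup E₁]
  [InnerProductSpace ℂ E₁] [FiniteDimensional ℂ E₁] [NormedAddCommGroup E₂]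
  [InnerProductSpace ℂ E₂] [FiniteDimensional ℂ E₂] (D : Data X E₁ E₂) (φ : X' → X) (ς : X' → ℝ)

def pa (w : (X' × ℝ) × E₂) : X × E₁ := (φ w.1.1, rho (D.π₁ (φ w.1.1))
  (ς w.1.1 * ς w.1.1 + cl (3 * w.1.2) * (1 - ς w.1.1 * ς w.1.1)) (D.u (φ w.1.1, w.2)))
def pb (w : (X' × ℝ) × E₂) : (X × ℝ) × E₂ := ((φ w.1.1, 3 * w.1.2 - 2), w.2)

/-- the scaled data -/
def sc : Data X' E₁ E₂ where
  π₁ x := D.π₁ (φ x)
  π₂ x := D.π₂ (φ x)
  C x := (ς x * ς x) • D.C (φ x)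
  μ := D.μ
  u w := rho (D.π₁ (φ w.1)) (ς w.1) (D.u (φ w.1, w.2))
  Ov := {w | (φ w.1, rho (D.π₁ (φ w.1)) (ς w.1) w.2) ∈ D.Ov}
  v w := D.v (φ w.1, rho (D.π₁ (φ w.1)) (ς w.1) w.2)
  O₁ := {w | ((φ w.1.1, w.1.2), rho (D.π₁ (φ w.1.1)) (ς w.1.1) w.2) ∈ D.O₁}
  h₁ w := rho (D.π₁ (φ w.1.1)) (ς w.1.1)
    (D.h₁ ((φ w.1.1, w.1.2), rho (D.π₁ (φ w.1.1)) (ς w.1.1) w.2))
  O₂ := {w | w.1.2 < 2 / 3 ∧ pa D φ ς w ∈ D.Ov} ∪ {w | 1 / 3 < w.1.2 ∧ pb φ w ∈ D.O₂}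
  h₂ w := if w.1.2 ≤ 1 / 2 then D.π₂ (φ w.1.1) (D.v (pa D φ ς w)) else D.h₂ (pb φ w)

variable {D φ ς} {c κ R₀ M : ℝ}

theorem mid (h : D.Ok c κ R₀ M) {w : (X' × ℝ) × E₂} (a : 1 / 3 ≤ w.1.2) (b : w.1.2 ≤ 2 / 3) :
    (pb φ w ∈ D.O₂ ↔ pa D φ ς w ∈ D.Ov) ∧
      (pa D φ ς w ∈ D.Ov → D.h₂ (pb φ w) = D.v (pa D φ ς w)) := by
  rw [pa, cl_of_ge (by linarith), one_mul, add_sub_cancel, rho_one]
  exact h.l₂ _ _ _ (by linarith)

theorem hA (h : D.Ok c κ R₀ M) {w : (X' × ℝ) × E₂} (b : w.1.2 ≤ 2 / 3) (m : pa D φ ς w ∈ D.Ov) :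
    (sc D φ ς).h₂ w = D.v (pa D φ ς w) := by
  simp only [sc]
  split_ifs with k
  exacts [h.vp _ m, (mid h (by linarith) b).2 m]

theorem hB (h : D.Ok c κ R₀ M) {w : (X' × ℝ) × E₂} (a : 1 / 3 ≤ w.1.2) (m : pb φ w ∈ D.O₂) :
    (sc D φ ς).h₂ w = D.h₂ (pb φ w) := by
  simp only [sc]
  split_ifs with k
  · have := mid (φ := φ) (ς := ς) h a (by linarith)
    exact (h.vp _ (this.1.1 m)).trans (this.2 (this.1.1 m)).symm
  · rfl

theorem sc_ok [CompactSpace X'] [T2Space X'] [T2Space X] (h : D.Ok c κ R₀ M) (hφ : Continuous φ)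
    (hς : Continuous ς) (m : ∀ x, ς x ∈ Icc (0 : ℝ) 1) : (sc D φ ς).Ok c κ R₀ M := by
  have c1 := h.p₁.ct
  have c2 := h.p₂.ct
  have cu := h.uc
  have m2 : ∀ x, ς x * ς x ∈ Icc (0 : ℝ) 1 := fun x =>
    ⟨mul_self_nonneg _, mul_le_one₀ (m x).2 (m x).1 (m x).2⟩
  have m3 : ∀ x t, ς x * ς x + cl t * (1 - ς x * ς x) ∈ Icc (0 : ℝ) 1 := fun x t => by
    constructor <;> nlinarith [(m2 x).1, (m2 x).2, (cl_mem t).1, (cl_mem t).2]
  have f0 : Continuous fun w : X' × E₁ => (φ w.1, rho (D.π₁ (φ w.1)) (ς w.1) w.2) := by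
    unfold rho; fun_prop
  have f1 : Continuous fun w : (X' × ℝ) × E₁ =>
      ((φ w.1.1, w.1.2), rho (D.π₁ (φ w.1.1)) (ς w.1.1) w.2) := by unfold rho; fun_prop
  have fa : Continuous (pa D φ ς) := by unfold pa rho; fun_prop
  have fb : Continuous (pb (E₂ := E₂) φ) := by unfold pb; fun_prop
  have vc : ContinuousOn (sc D φ ς).v (sc D φ ς).Ov := h.vc.comp f0.continuousOn fun _ a => a
  have g1 : ContinuousOn (sc D φ ς).h₁ (sc D φ ς).O₁ :=
    (by unfold rho; fun_prop : Continuous fun p : ((X' × ℝ) × E₁) × E₁ =>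
      rho (D.π₁ (φ p.1.1.1)) (ς p.1.1.1) p.2).comp_continuousOn
      (continuousOn_id.prodMk (h.c₁.comp f1.continuousOn fun _ a => a))
  have oa : IsOpen {w : (X' × ℝ) × E₂ | w.1.2 < 2 / 3 ∧ pa D φ ς w ∈ D.Ov} :=
    IsOpen.and (isOpen_lt (by fun_prop) continuous_const) (h.vo.preimage fa)
  have ob : IsOpen {w : (X' × ℝ) × E₂ | 1 / 3 < w.1.2 ∧ pb φ w ∈ D.O₂} :=
    IsOpen.and (isOpen_lt continuous_const (by fun_prop)) (h.o₂.preimage fb)
  have g2 : ContinuousOn (sc D φ ς).h₂ (sc D φ ς).O₂ := ContinuousOn.union_of_isOpen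
    ((h.vc.comp fa.continuousOn fun _ a => a.2).congr fun _ a => hA h a.1.le a.2)
    ((h.c₂.comp fb.continuousOn fun _ a => a.2).congr fun _ a => hB h a.1.le a.2) oa ob
  have bx : ∀ {E : Type} [NormedAddCommGroup E] [ProperSpace E] (R : ℝ),
      IsCompact (((univ : Set X') ×ˢ Icc (-R) R) ×ˢ Metric.closedBall (0 : E) R) := fun R =>
    (isCompact_univ.prod isCompact_Icc).prod (isCompact_closedBall _ _)
  have sx : ∀ {E : Type} [NormedAddCommGroup E] (R : ℝ),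
      IsClosed {w : (X' × ℝ) × E | |w.1.2| ≤ R ∧ ‖w.2‖ ≤ R} := fun R =>
    IsClosed.and (isClosed_le (by fun_prop) continuous_const)
      (isClosed_le (by fun_prop) continuous_const)
  refine ⟨⟨c1.comp hφ, fun x => h.p₁.id _, fun x => h.p₁.sa _⟩,
    ⟨c2.comp hφ, fun x => h.p₂.id _, fun x => h.p₂.sa _⟩, h.hμ, h.hc, h.hκ,
    (hς.mul hς).smul (h.Cc.comp hφ), fun x => ?_, fun x y => ?_, ?_, fun x z => ?_,
    fun x z => (rho_sub h.p₁ _ (m x) _).trans (h.ub _ z), fun x z a => ?_, h.vo.preimage f0, vc,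
    fun w a => h.vp _ a, fun R => ?_, fun w a => ?_, h.o₁.preimage f1, g1, fun R => ?_,
    fun w a => ?_, fun w a b => ?_, fun x s y a => ⟨(h.l₁ _ s _ a).1, ?_⟩,
    fun x s y a => ⟨(h.r₁ _ s _ a).1, fun b => congrArg (rho _ _) ((h.r₁ _ s _ a).2 b)⟩, oa.union ob, g2,
    fun x s z => ?_, fun R => ?_, fun w a b => ?_, fun x s z a => ?_,
    fun x s z a => ⟨.inr ⟨by linarith, (h.r₂ _ _ _ (by linarith)).1⟩, ?_⟩⟩
  · simp only [sc]
    rw [norm_smul, Real.norm_of_nonneg (m2 x).1]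
    exact (mul_le_of_le_one_left (norm_nonneg _) (m2 x).2).trans (h.Cn _)
  · simp [sc, h.Cp]
  · simp only [sc]; unfold rho; fun_prop
  · simp only [sc, h.up]
  · simp only [sc, pi_rho h.p₁]; exact h.ux _ z a
  · refine cp_aux (S := {w : X' × E₁ | ‖w.2‖ ≤ R}) ((isCompact_univ.prod
      (isCompact_closedBall (0 : E₁) R)).inter_right ((h.vk R).isClosed.preimage f0))
      (fun w a => a.2.1) vc (isClosed_le (by fun_prop) continuous_const)
      (fun w => ⟨fun a => ⟨a.1, a.2.2, a.2.1⟩, fun a => ⟨a.1, a.2.2, a.2.1⟩⟩) fun w a =>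
      ⟨⟨trivial, mem_closedBall_zero_iff.2 a.2.2⟩, a.1, a.2.1, (rho_le h.p₁ _ (m _) _).trans a.2.2⟩
  · simpa only [pi_rho h.p₁, sc] using h.vb _ a
  · refine cp_aux ((bx R).inter_right ((h.k₁ (3 * R + M)).isClosed.preimage f1))
      (fun w a => a.2.1) g1 (sx R)
      (fun w => ⟨fun a => ⟨a.1, ⟨a.2.1, a.2.2.2⟩, a.2.2.1⟩, fun a => ⟨a.1, a.2.1.1, a.2.2, a.2.1.2⟩⟩)
      fun w a => ⟨⟨⟨trivial, abs_le.1 a.2.1⟩, mem_closedBall_zero_iff.2 a.2.2.2⟩, a.1, ?_⟩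
    have r0 := (abs_nonneg _).trans a.2.1
    have r1 := (norm_nonneg _).trans (h.ub (φ w.1.1) 0)
    have r2 := (rho_le h.p₁ (φ w.1.1) (m w.1.1) w.2).trans a.2.2.2
    have r3 := h.b₁ _ a.1
    have r4 := (pr_le h.p₁ (φ w.1.1) _).trans a.2.2.1
    have r5 := (norm_sub_le _ _).trans (add_le_add r2 ((pr_le h.p₁ (φ w.1.1) _).trans r2))
    simp only [sc, pi_rho h.p₁] at r3 r4 r5
    refine ⟨a.2.1.trans (by linarith), ?_, r2.trans (by linarith)⟩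
    refine (norm_le_norm_sub_add _ _).trans ((add_le_add r3 r4).trans ?_)
    nlinarith [h.hc, norm_nonneg (rho (D.π₁ (φ w.1.1)) (ς w.1.1) w.2 - D.π₁ (φ w.1.1) w.2)]
  · refine (rho_sub h.p₁ _ (m _) _).trans ((h.b₁ _ a).trans (add_le_add le_rfl ?_))
    exact mul_le_mul_of_nonneg_left (rho_sub h.p₁ _ (m _) _) ((norm_nonneg _).trans (h.Cn (φ w.1.1)))
  · have := h.x₁ _ a
    simp only [sc, pi_rho h.p₁] at this b ⊢
    exact this b
  · simp only [sc, (h.l₁ _ s _ a).2, pi_rho h.p₁]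
    simp [rho, h.Cp, h.p₁.id, smul_smul, add_comm]
  · have e : pa D φ ς ((x, s), D.π₂ (φ x) z) = pa D φ ς ((x, s), z) := by simp only [pa, h.up]
    have q := h.q₂ (φ x) (3 * s - 2) z
    refine ⟨or_congr (and_congr Iff.rfl (e ▸ Iff.rfl)) (and_congr Iff.rfl q.1), ?_, ?_⟩ <;>
      simp only [sc, e] <;> split_ifs
    exacts [rfl, q.2.1, h.p₂.id _ _, q.2.2]
  · obtain ⟨U, hU⟩ := (bx (E := E₂) R).exists_bound_of_continuousOn
      (f := fun w => D.u (φ w.1.1, w.2)) (by fun_prop)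
    refine cp_aux ((bx R).inter_right (((isClosed_le (f := fun w : (X' × ℝ) × E₂ => w.1.2)
      (g := fun _ => 1 / 2) (by fun_prop) continuous_const).inter
        ((h.vk (max R U)).isClosed.preimage fa)).union ((isClosed_le (f := fun _ => 1 / 2)
      (g := fun w : (X' × ℝ) × E₂ => w.1.2) continuous_const (by fun_prop)).inter
        ((h.k₂ (3 * R + 2)).isClosed.preimage fb)))) (fun w a => a.2.imp
          (fun b => ⟨lt_of_le_of_lt b.1 (by norm_num), b.2.1⟩)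
          fun b => ⟨lt_of_lt_of_le (by norm_num) b.1, b.2.1⟩) g2 (sx R)
      (fun w => ⟨fun a => ⟨a.1, ⟨a.2.1, a.2.2.2⟩, a.2.2.1⟩, fun a => ⟨a.1, a.2.1.1, a.2.2, a.2.1.2⟩⟩)
      fun w a => ?_
    have b : w ∈ ((univ : Set X') ×ˢ Icc (-R) R) ×ˢ Metric.closedBall (0 : E₂) R :=
      ⟨⟨trivial, abs_le.1 a.2.1⟩, mem_closedBall_zero_iff.2 a.2.2.2⟩
    have r0 := (abs_nonneg _).trans a.2.1
    have r1 : -R ≤ w.1.2 := b.1.2.1
    have r2 : w.1.2 ≤ R := b.1.2.2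
    refine ⟨b, (le_total w.1.2 (1 / 2)).imp (fun (t : w.1.2 ≤ 1 / 2) => ⟨t, ?_⟩)
      fun (t : 1 / 2 ≤ w.1.2) => ⟨t, ?_⟩⟩
    · have n : pa D φ ς w ∈ D.Ov := a.1.elim (·.2) fun e => (mid h e.1.le (by linarith)).1.1 e.2
      exact ⟨n, (hA h (by linarith) n ▸ a.2.2.1).trans (le_max_left _ _),
        ((rho_le h.p₁ _ (m3 _ _) _).trans (hU w b)).trans (le_max_right _ _)⟩
    · have n : pb φ w ∈ D.O₂ := a.1.elim (fun e => (mid h (by linarith) e.1.le).1.2 e.2) (·.2)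
      exact ⟨n, abs_le.2 ⟨by simp only [pb]; linarith, by simp only [pb]; linarith⟩,
        (hB h (by linarith) n ▸ a.2.2.1).trans (by linarith), a.2.2.2.trans (by linarith)⟩
  · rcases a with a | a
    · have r1 := h.vb _ a.2
      have r2 := h.ux _ _ b
      have r3 := norm_nonneg ((sc D φ ς).h₂ w)
      have r4 := norm_nonneg (D.π₂ (φ w.1.1) w.2)
      simp only [pa, pi_rho h.p₁] at r1
      simp only [sc] at b r2 r3 ⊢
      nlinarith [h.hκ, mul_nonneg h.hκ.le r4, mul_pos h.hκ h.hκ]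
    · rw [hB h a.1.le a.2]; exact h.x₂ _ a.2 b
  · have e : pa D φ ς ((x, s), z) = (φ x, rho (D.π₁ (φ x)) (ς x) ((sc D φ ς).u (x, z))) := by
      simp only [pa, sc, rho_rho h.p₁, cl_of_le (show 3 * s ≤ 0 by linarith), zero_mul, add_zero]
    have e' : pa D φ ς ((x, s), z) ∈ D.Ov ↔ (x, (sc D φ ς).u (x, z)) ∈ (sc D φ ς).Ov := by
      rw [e]; rfl
    refine ⟨⟨fun b => b.elim (fun b => e'.1 b.2) fun b => absurd b.1 (by linarith),
      fun b => .inl ⟨by linarith, e'.2 b⟩⟩, fun b => ?_⟩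
    rw [hA h (by linarith) (e'.2 b), e]; rfl
  · rw [hB h (by linarith) (h.r₂ _ _ _ (by linarith)).1]
    exact (h.r₂ _ _ _ (by linarith)).2

theorem orb_ok [T2Space X] (h : D.Ok c κ R₀ M) (k : ℕ) : (D.Orb k).Ok := by
  have e1 : (D.LC k).pull (fun b => (b, 1)) = D.Orb k := by
    simp only [Data.LC, Data.LR, PM.pull, Data.Orb]
    congr 1
    · funext w; simp
    · funext b; simp [nu_zero]
  exact e1 ▸ (Data.LC_ok h).pull (by fun_prop)
end Sa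

open Sa in
/-- **SAT** -/
theorem sat : SAT := by
  intro X _ _ _ T n₁ n₂ D c κ R₀ M k δ h hk hδ _
  have o := (orb_ok (sc_ok (φ := fun p : X × I => p.1) (ς := fun p => p.2) h (by fun_prop)
    (by fun_prop) fun p => p.2.2) k).pull
    (φ := fun b : (X × UnitAddCircle) × I => ((b.1.1, b.2), b.1.2)) (by fun_prop)
  have e := PM.eqv_F o hδ ⟨univ, isCompact_univ, fun b hb => absurd trivial hb⟩
  have o' := sc_ok (φ := id) (ς := fun _ => 0) h continuous_id continuous_const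
    fun _ => ⟨le_rfl, zero_le_one⟩
  refine ⟨sc D id fun _ => 0, c, κ, R₀, M, o', ?_, rfl, rfl, PM.fok (orb_ok o' k) (tau_ok hδ)
    ⟨univ, isCompact_univ, fun b hb => absurd trivial hb⟩, T.an_eqv k _ _ _ hk ?_⟩
  · constructor <;> simp [sc, rho_zero, h.p₁.id]
  · convert e using 2
    · rfl
    · simp [PM.pull, Data.Orb, sc, rho_one]

end Crest.Agent.N218.Sk
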