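import Crest.Agent.N218.Sk.Top
import Crest.Agent.N218.A.Rs
import Crest.Agent.N218.A.ParI
import Crest.Agent.N218.C.Cone
import Crest.Agent.N218.C.Stp
import Crest.Agent.N218.C.Next
import Crest.Agent.N218.C.Toe

/-!
# Row 218 (helper86): blocks (A0) and (C) in the form of the top cut
-/

set_option autoImplicit false
open Set

namespace Crest.Agent.N218.Sk

theorem ac_of (h : A.AC) : AC := fun Φ => by
  obtain ⟨ι, e, h⟩ := h Φ
  refine ⟨ι, e, fun F a b c => ?_⟩
  obtain ⟨M, c, B, ξ, γ, gr, zz, k, c', d, g, -, n, i, j⟩ := h F a b c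
  have o := Φ.ho n
  have u : ∀ {x : C.X}, ‖x‖ = 1 → x ∈ Metric.sphere (0 : C.X) 1 := fun hx => by simpa using hx
  exact ⟨M, c, B, ξ, γ, gr, zz, k, A.Rs.rsOf Φ.r k, d, g, n.co, o.co, fun x y _ => n.ze x y,
    fun s x y _ => n.id s x y, fun s hs x y hx => n.ro s hs x (u hx) y, fun x y _ _ => o.ze x y,
    fun x y hx => o.on x (u hx) y, fun s x y hx => o.id s x (u hx) y,
    fun s hs x y hx => o.le s hs x (u hx) y, fun s hs x y z => i s hs x z y,
    fun s hs x y z => j s hs x z y⟩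

/-- block (C), unconditional -/
theorem cm2' : C.CM2 := C.cm2 C.cone C.near C.base C.next C.toe2

theorem aac (hL : A.LAG) : A.AC := A.ac_of hL A.par cm2'

theorem ac (hL : A.LAG) : AC := ac_of (aac hL)

end Crest.Agent.N218.Sk
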