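import Crest.Agent.N218.Sk.All
import Crest.Agent.N218.D7.Ext
import Crest.Agent.N218.K.Denl
import Crest.Agent.N218.D3.Fin1
import Crest.Agent.N218.D3.Lbl
import Crest.Agent.N218.D3.Chb
import Crest.Agent.N218.D3.Eis
import Crest.Agent.N218.D6.Fin
import Crest.Agent.N218.D6.Pres
import Crest.Agent.N218.D6.Uni
import Crest.Agent.N218.D6.Finb
import Crest.Agent.N218.D6.Kve
import Crest.Agent.N218.D6.Inst
import Crest.Agent.N218.D6.Algm
import Crest.Agent.N218.D6.Link2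
import Crest.Agent.N218.D6.LkExq
import Crest.Agent.N218.D6.LkSur
import Crest.Agent.N218.D6.Nulh
import Crest.Agent.N218.D6.LkCm2
import Crest.Agent.N218.Pc.Fin0
import Crest.Agent.N218.Pc.Emb
import Crest.Agent.N218.Pc.Ads
import Crest.Agent.N218.Pc.Dsc
import Crest.Agent.N218.Pc.Rh
import Crest.Agent.N218.Pc.Pc1
import Crest.Agent.N218.Pc.Psh
import Crest.Agent.N218.Pc.Cnj
import Crest.Agent.N218.Pc.Llk
import Crest.Agent.N218.Pc.Grd
import Crest.Agent.N218.Pc.Tlf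
import Crest.Agent.N218.Pc.Rgu
import Crest.Agent.N218.Pc.Rgd
import Crest.Agent.N218.Pc.Rim
import Crest.Agent.N218.Pc.Fd

/-! Row 218 (helper40): more closed blocks. -/

set_option autoImplicit false

noncomputable section

namespace Crest.Agent.N218.Sk

theorem exa0 : D7.EXA := fun _ _ _ _ _ o k _ _ =>
  D7.ext K.thom K.kln (K.denl K.thom K.kln) (by simp) o k
theorem d3t0 : D3.D3T :=
  D3.d31 (D3.lbl D3.hopf0 D3.nuk0) (D3.chb (D3.pfr D3.okx D3.zl)) (D3.eis D3.rep D3.oke)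
theorem d6t0 (h1 : D6.LOCA) (h2 : D6.LINK1) (h3 : D6.Lk.CM1) : D6.D6T :=
  D6.fin h1 D6.kve D6.inst D6.uni h2 (D6.Lk.link2 D6.Lk.exq D6.Lk.sur D6.Lk.nul h3 D6.Lk.cm2)
    D6.algm D6.pres D6.finb
open Pc in
theorem piece0 (h : SQZ) : P.PIECE :=
  Fn.piece (fun _ h => sml h) emb ads dsc rh r0k pc0 (pc1 dsc) psh cnj llk grd h tlf rgu rgd
    (rim fd) red0

end Crest.Agent.N218.Sk

end
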