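import Crest.Agent.N218.Sk.Al2
import Crest.Agent.N218.D6.Link1
import Crest.Agent.N218.D6.Lk2
import Crest.Agent.N218.D6.LkCm1
import Crest.Agent.N218.Pc.Sqz

/-! Row 218 (helper40): everything but the abstract localisation. -/

set_option autoImplicit false

noncomputable section

namespace Crest.Agent.N218.Sk

open scoped Manifold ContDiff in
open Crest.GeometryTopology.CotangentSpheres in
theorem last (h : D6.LOCA) :
    ∃ m : ℕ, Odd m ∧ ∃ ι : Sph 9 × Sph m → Amb m, IsExactLagEmbedding m ι ∧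
      ¬ ∃ F : ℝ → Sph 9 × Sph m → Amb m,
          ContMDiff (𝓘(ℝ, ℝ).prod ((𝓡 9).prod (𝓡 m))) 𝓘(ℝ, Amb m) ∞
              (fun p : ℝ × (Sph 9 × Sph m) => F p.1 p.2) ∧
            (∀ s, IsExactLagEmbedding m (F s)) ∧ F 0 = zeroSection m ∧
            Set.range (F 1) = Set.range ι :=
  all exa0 (d6t0 h (D6.link1_of D6.Lk.l1b) D6.Lk.cm1) (piece0 Pc.sqz) d3t0

end Crest.Agent.N218.Sk

end
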