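import Crest.Agent.N218.Sk.Fin
import Crest.Agent.N218.Sk.Stb
import Crest.Agent.N218.Sk.SatP
import Crest.Agent.N218.K.Fin
import Crest.Agent.N218.In.Gen
import Crest.Agent.N218.In.Pan
import Crest.Agent.N218.In.Cst
import Crest.Agent.N218.Pm.Alg
import Crest.Agent.N218.P.A4
import Crest.Agent.N218.P.Ret1
import Crest.Agent.N218.En.End
import Crest.Agent.N218.En.Gf
import Crest.Agent.N218.En.Dg
import Crest.Agent.N218.En.Trl
import Crest.Agent.N218.En.Jet
import Crest.Agent.N218.En.Sta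
import Crest.Agent.N218.En.Ste
import Crest.Agent.N218.En.Sgn
import Crest.Agent.N218.En.Trv
import Crest.Agent.N218.En.Wra
import Crest.Agent.N218.En.Wrb
import Crest.Agent.N218.En.Dim
import Crest.Agent.N218.En.Cxe
import Crest.Agent.N218.En.Ly
import Crest.Agent.N218.Rd.Dich
import Crest.Agent.N218.Rd.Uv
import Crest.Agent.N218.Rd.H1a
import Crest.Agent.N218.Rd.H1b
import Crest.Agent.N218.Rd.H2
import Crest.Agent.N218.Rd.Tail
import Crest.Agent.N218.Rd.Trs
import Crest.Agent.N218.D7.Dim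
import Crest.Agent.N218.D7.Deg
import Crest.Agent.N218.D7.Rfl
import Crest.Agent.N218.D7.Plh
import Crest.Agent.N218.D7.Rot
import Crest.Agent.N218.D7.Loc
import Crest.Agent.N218.D7.Sep
import Crest.Agent.N218.D7.Nft
import Crest.Agent.N218.D7.Cht
import Crest.Agent.N218.D7.Orbj
import Crest.Agent.N218.D6.Df2
import Crest.Agent.N218.D3.Geo

/-! Row 218 (helper40): the closed blocks. -/

set_option autoImplicit false

noncomputable section

namespace Crest.Agent.N218.Sk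

theorem dyn0 : Rd.DYN := Rd.dyn Rd.dich Rd.uv Rd.h1a Rd.h1b Rd.h2
theorem red0 : Rd.RED := Rd.red dyn0 (Rd.trs Rd.tail)
theorem endt0 : ENDT := En.endt_of En.gf En.dg En.trl En.jet En.sta En.ste En.sgn En.trv
  (En.wra En.ly) En.wrb En.dim En.cxe dyn0 red0
theorem d7t0 (h : D7.EXA) : D7T := d7t Pm.alg D7.dim D7.zer D7.rfl_ D7.deg D7.plh D7.rot D7.loc
  (D7.sep D7.plh) D7.nft D7.cht (D7.orbj K.dsum' h)

open scoped Manifold ContDiff in
open Crest.GeometryTopology.CotangentSpheres in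
theorem all (h7 : D7.EXA) (h6 : D6.D6T) (hP : P.PIECE) (h3 : D3.D3T) :
    ∃ m : ℕ, Odd m ∧ ∃ ι : Sph 9 × Sph m → Amb m, IsExactLagEmbedding m ι ∧
      ¬ ∃ F : ℝ → Sph 9 × Sph m → Amb m,
          ContMDiff (𝓘(ℝ, ℝ).prod ((𝓡 9).prod (𝓡 m))) 𝓘(ℝ, Amb m) ∞
              (fun p : ℝ × (Sph 9 × Sph m) => F p.1 p.2) ∧
            (∀ s, IsExactLagEmbedding m (F s)) ∧ F 0 = zeroSection m ∧
            Set.range (F 1) = Set.range ι :=
  fin K.inve' K.invd' In.gen In.pan In.cst stbt Pm.alg endt0 (d7t0 h7)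
    (fun g p s J h => val_pcd sat (by norm_num) (h6 g p s J h)) (P.a4' P.ret1) hP h3

end Crest.Agent.N218.Sk

end
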