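import Crest.Agent.N218.D2.Yk
import Crest.Agent.N218.Pm.Adm0

/-! Row 218 (helper48): the free zeros of `Ψ(f) w + eᵗ w⁻` form a compact set. -/

set_option autoImplicit false
set_option linter.unusedSectionVars false
open Set Filter Topology Metric

noncomputable section

namespace Crest.Agent.N218.Yk

variable {E ι : Type*} [NormedAddCommGroup E] [NormedSpace ℝ E] [Fintype ι]

theorem norm_mn_le (τ : Equiv.Perm ι) {g : ι → E} {C : ℝ} (h : ∀ i, ‖g i‖ ≤ C) (i : ι) :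
    ‖mn τ g i‖ ≤ C := by
  rw [mn, norm_smul, Real.norm_of_nonneg (by norm_num)]
  linarith [norm_sub_le (g i) (g (τ i)), h i, h (τ i)]

/-- the odd part as a continuous linear map -/
def mnL (τ : Equiv.Perm ι) : (ι → E) →L[ℝ] (ι → E) :=
  ContinuousLinearMap.pi fun i => (1 / 2 : ℝ) • (ContinuousLinearMap.proj i -
    ContinuousLinearMap.proj (R := ℝ) (φ := fun _ : ι => E) (τ i))

theorem mnL_apply (τ : Equiv.Perm ι) (z : ι → E) : mnL τ z = mn τ z := rfl

theorem cont_mn (τ : Equiv.Perm ι) : Continuous (mn τ : (ι → E) → ι → E) := (mnL τ).continuous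

variable [FiniteDimensional ℝ E]

/-- a-priori bounds, uniform in `s ≥ 0` -/
theorem apr {σ τ : Equiv.Perm ι} (h2 : τ * τ = 1) (cm : ∀ i, τ (σ i) = σ (τ i)) (A : E →L[ℝ] E)
    (hA : ∀ (s : ℝ) (z : ι → E), 0 ≤ s → (∀ i, z (σ i) + s • mn τ z (σ i) = A (z i)) → z = 0) :
    ∃ K : ℝ, 0 < K ∧ ∀ (s C : ℝ) (z g : ι → E), 0 ≤ s → 0 ≤ C → (∀ i, ‖g i‖ ≤ C) →
      (∀ i, z (σ i) + s • mn τ z (σ i) = A (z i) + g i) →
        ‖z‖ ≤ K * C ∧ (1 + s) * ‖mn τ z‖ ≤ K * C := by
  let n : (ι → E) →L[ℝ] (ι → E) := ContinuousLinearMap.pi fun i => ContinuousLinearMap.proj (σ i)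
  let D : (ι → E) →L[ℝ] (ι → E) := n - ContinuousLinearMap.pi fun i =>
    A.comp (ContinuousLinearMap.proj (R := ℝ) (φ := fun _ : ι => E) i)
  obtain ⟨c, c0, hc⟩ := Ad.pencil (mnL τ) D n fun a b v a0 b0 e hv h => by
    rcases a0.eq_or_lt with rfl | a0
    · have : b = 1 := by linarith
      funext i
      obtain ⟨i, rfl⟩ := σ.surjective i
      simpa [this, n] using congrFun h i
    · refine hA (b / a) v (by positivity) fun i => ?_
      have k : a • (v (σ i) - A (v i)) + b • v (σ i) = 0 := congrFun h i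
      rw [← mnL_apply, hv, ← sub_eq_zero]
      refine (smul_eq_zero.1 ?_).resolve_left a0.ne'
      rw [← k, smul_sub, smul_add, smul_smul, mul_div_cancel₀ _ a0.ne']
      module
  obtain ⟨K, K0, hK⟩ := bdd σ A fun z h => hA 0 z le_rfl (by simpa using h)
  refine ⟨(K + 1) * (1 + c⁻¹), by positivity, fun s C z g s0 C0 hg h => ?_⟩
  have e : D (mn τ z) + s • n (mn τ z) = mn τ g := by
    funext i
    have a := h i
    have b := h (τ i)
    rw [← cm, mn_tau h2] at b
    change mn τ z (σ i) - A (mn τ z i) + s • mn τ z (σ i) = mn τ g i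
    rw [mn, mn, mn, map_smul, map_sub, eq_sub_of_add_eq a.symm, eq_sub_of_add_eq b.symm, mn]
    module
  have k := hc s (mn τ z) s0 (mn_mn h2 z)
  rw [e] at k
  have k1 : (1 + s) * ‖mn τ z‖ ≤ c⁻¹ * C := by
    rw [le_inv_mul_iff₀ c0, ← mul_assoc]
    exact k.trans ((pi_norm_le_iff_of_nonneg C0).2 (norm_mn_le τ hg))
  have c1 : 0 ≤ c⁻¹ * C := by positivity
  refine ⟨(hK z (C + c⁻¹ * C) (fun i => ?_) (by positivity)).trans (by nlinarith), k1.trans ?_⟩
  · rw [show z (σ i) - A (z i) = g i - s • mn τ z (σ i) by rw [eq_sub_of_add_eq (h i)]; abel]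
    refine (norm_sub_le _ _).trans (add_le_add (hg i) ?_)
    rw [norm_smul, Real.norm_of_nonneg s0]
    nlinarith [norm_le_pi_norm (mn τ z) (σ i), norm_nonneg (mn τ z)]
  · nlinarith [mul_nonneg K0 C0, mul_nonneg K0 c1]

/-- **the free zeros are compact** -/
theorem ec_cpt {P : Type*} [TopologicalSpace P] [CompactSpace P] {σ τ : Equiv.Perm ι}
    (h2 : τ * τ = 1) (cm : ∀ i, τ (σ i) = σ (τ i)) {f : P → E → E}
    (hf : Continuous fun x : P × E => f x.1 x.2) (A : E →L[ℝ] E)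
    (hA : ∀ (s : ℝ) (z : ι → E), 0 ≤ s → (∀ i, z (σ i) + s • mn τ z (σ i) = A (z i)) → z = 0)
    {C : ℝ} (hC : ∀ p y, ‖f p y - A y‖ ≤ C) {δ : ℝ} (d0 : 0 < δ)
    (hδ : ∀ p (s : ℝ) (z : ι → E), 0 ≤ s → ‖s • mn τ z‖ ≤ δ →
      (∀ i, z (σ i) + s • mn τ z (σ i) = f p (z i)) → mn τ z = 0) :
    IsCompact {x : P × ℝ × (ι → E) | mn τ x.2.2 ≠ 0 ∧
      ∀ i, x.2.2 (σ i) + Real.exp x.2.1 • mn τ x.2.2 (σ i) = f x.1 (x.2.2 i)} := by
  obtain ⟨K, K0, hK⟩ := apr h2 cm A hA
  set M := K * (|C| + 1) with hM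
  have M0 : 0 < M := by positivity
  have bd : ∀ p (s : ℝ) (z : ι → E), 0 ≤ s → (∀ i, z (σ i) + s • mn τ z (σ i) = f p (z i)) →
      ‖z‖ ≤ M ∧ (1 + s) * ‖mn τ z‖ ≤ M := fun p s z s0 h =>
    hK s _ z (fun i => f p (z i) - A (z i)) s0 (by positivity)
      (fun i => (hC _ _).trans (by linarith [le_abs_self C])) fun i => by rw [h i]; abel
  have c1 : IsCompact ((univ ×ˢ closedBall (0 : E) M ×ˢ closedBall (0 : E) M) ∩
      {x : P × E × E | δ ≤ ‖f x.1 x.2.1 - f x.1 x.2.2‖}) :=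
    (isCompact_univ.prod ((isCompact_closedBall _ _).prod (isCompact_closedBall _ _))).inter_right
      (isClosed_le continuous_const ((hf.comp (by fun_prop : Continuous fun x : P × E × E =>
        (x.1, x.2.1))).sub (hf.comp (by fun_prop : Continuous fun x : P × E × E =>
        (x.1, x.2.2)))).norm)
  obtain ⟨η, e0, he⟩ := c1.exists_forall_le' (f := fun x => ‖x.2.1 - x.2.2‖) (by fun_prop) (a := 0)
    fun x hx => norm_pos_iff.2 fun e => by
      have := hx.2
      rw [mem_setOf_eq, sub_eq_zero.1 e, sub_self, norm_zero] at this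
      linarith
  have lo : ∀ p (s : ℝ) (z : ι → E), 0 ≤ s → mn τ z ≠ 0 →
      (∀ i, z (σ i) + s • mn τ z (σ i) = f p (z i)) → δ ≤ s * ‖mn τ z‖ ∧ η / 2 ≤ ‖mn τ z‖ := by
    intro p s z s0 hz h
    have a : δ < ‖s • mn τ z‖ := lt_of_not_ge fun k => hz (hδ p s z s0 k h)
    refine ⟨by rw [norm_smul, Real.norm_of_nonneg s0] at a; exact a.le, le_of_not_gt fun k => ?_⟩
    refine a.not_ge ((pi_norm_le_iff_of_nonneg d0.le).2 fun i => ?_)
    obtain ⟨i, rfl⟩ := σ.surjective i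
    have zi : ∀ i, z i ∈ closedBall (0 : E) M := fun i =>
      mem_closedBall_zero_iff.2 ((norm_le_pi_norm z i).trans (bd p s z s0 h).1)
    have u : ‖f p (z i) - f p (z (τ i))‖ < δ := lt_of_not_ge fun l => by
      have v := he (p, z i, z (τ i)) ⟨⟨trivial, zi _, zi _⟩, l⟩
      have w := norm_le_pi_norm (mn τ z) i
      rw [mn, norm_smul, Real.norm_of_nonneg (by norm_num)] at w
      dsimp only at v
      linarith
    have b := h (τ i)
    rw [← cm, mn_tau h2] at b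
    have e : f p (z i) - f p (z (τ i)) = (2 * (1 + s)) • mn τ z (σ i) := by
      rw [← h i, ← b, mn]; module
    rw [e, norm_smul, Real.norm_of_nonneg (by positivity)] at u
    rw [Pi.smul_apply, norm_smul, Real.norm_of_nonneg s0]
    nlinarith [norm_nonneg (mn τ z (σ i))]
  have cl : IsClosed {x : P × ℝ × (ι → E) | η / 2 ≤ ‖mn τ x.2.2‖ ∧
      ∀ i, x.2.2 (σ i) + Real.exp x.2.1 • mn τ x.2.2 (σ i) = f x.1 (x.2.2 i)} := by
    have m : Continuous fun x : P × ℝ × (ι → E) => mn τ x.2.2 := (cont_mn τ).comp (by fun_prop)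
    simp only [setOf_and, setOf_forall]
    exact (isClosed_le continuous_const m.norm).inter <| isClosed_iInter fun i => isClosed_eq (by fun_prop) (hf.comp (by fun_prop :
      Continuous fun x : P × ℝ × (ι → E) => (x.1, x.2.2 i)))
  refine (isCompact_univ.prod ((isCompact_Icc (a := Real.log (δ / M))
    (b := Real.log (2 * M / η))).prod (isCompact_closedBall (0 : ι → E) M))).of_isClosed_subset
      (by convert cl using 3 with x; exact and_congr_left fun h =>
        ⟨fun k => (lo _ _ _ (Real.exp_pos _).le k h).2, fun k e => by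
          rw [e, norm_zero] at k; linarith⟩) ?_
  rintro ⟨p, t, z⟩ ⟨a, h⟩
  have s0 := Real.exp_pos t
  obtain ⟨b1, b2⟩ := bd p _ z s0.le h
  obtain ⟨l1, l2⟩ := lo p _ z s0.le a h
  dsimp only at *
  refine ⟨trivial, ⟨?_, ?_⟩, mem_closedBall_zero_iff.2 b1⟩
  · rw [Real.log_le_iff_le_exp (by positivity), div_le_iff₀ M0]
    nlinarith [norm_nonneg (mn τ z)]
  · rw [Real.le_log_iff_exp_le (by positivity), le_div_iff₀ e0]
    nlinarith [norm_nonneg (mn τ z)]

end Crest.Agent.N218.Yk
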