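import Crest.Agent.N218.A.ToC
import Crest.Agent.N218.Al.Phi

/-! Row 218 (helper40): the top cut. `ev` is the invariant of an admissible family of self-maps. -/

set_option autoImplicit false
open scoped Manifold ContDiff InnerProductSpace Topology
open Set Crest.GeometryTopology.CotangentSpheres

noncomputable section

namespace Crest.Agent.N218.Sk
open C

/-- the base sphere -/
abbrev S11 : Type := Metric.sphere (0 : X) 1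

/-- the values of the invariant -/
abbrev QQ : Type := ℚ ⧸ Al.O2.toAddSubgroup

/-- the class of `1/2` -/
def half : QQ := QuotientAddGroup.mk (1 / 2 : ℚ)

theorem half_ne : half ≠ 0 := fun h => by
  have := (QuotientAddGroup.eq_zero_iff _).1 h
  exact absurd (Al.mem_O2.1 this) (by norm_num)

/-- invariants of families of self-maps over `S¹¹` -/
abbrev Ev : Type 1 := ∀ (E : Type) [NormedAddCommGroup E] [NormedSpace ℝ E]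
  [FiniteDimensional ℝ E], (S11 → E → E) → QQ

section
variable {Z : Type} [NormedAddCommGroup Z] [InnerProductSpace ℝ Z]

/-- the family at the end of the chain -/
def fe (r : X × Y → Y) (B : Z →L[ℝ] Z) (ξ : X × Z → X) (gr : X × Fb Z → Fb Z) (ε : ℝ) (x : S11) :
    Fb Z → Fb Z := fm r (fun z => ξ (x, z)) (fun p => Bz B p + gr (x, p)) ε

/-- the family `r × (1 - ε B)` -/
def f0 (r : X × Y → Y) (B : Z →L[ℝ] Z) (ε : ℝ) (x : S11) : Fb Z → Fb Z :=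
  fm r (fun _ => x) (Bz B) ε

/-- the family `r` -/
def fr (r : X × Y → Y) (x : S11) (y : Y) : Y := r (x, y)

/-- inward homotopies compatible with `γ`: `k` pushes the collar into the domain, `rs` joins the
identity to `r` on the collar -/
structure Kf (ρ : X × Y → ℝ) (r : X × Y → Y) (w C : ℝ) (ξ : X × Z → X) (γ : X × Fb Z → ℝ)
    (k rs : ℝ × X × Y → Y) : Prop where
  gb : ∀ x p, ‖x‖ = 1 → |γ (x, p)| ≤ C
  kc : Continuous k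
  rc : Continuous rs
  k0 : ∀ x y, ‖x‖ = 1 → k (0, x, y) = y
  kf : ∀ s x y, ‖x‖ = 1 → ρ (x, y) ≤ 0 → k (s, x, y) = y
  kr : ∀ s ∈ Icc (0 : ℝ) 1, ∀ x y, ‖x‖ = 1 → ρ (x, y) ≤ w →
    ρ (x, k (s, x, y)) = ρ (x, y) - s * max (ρ (x, y)) 0
  r0 : ∀ x y, ‖x‖ = 1 → ρ (x, y) ≤ w → rs (0, x, y) = y
  r1 : ∀ x y, ‖x‖ = 1 → ρ (x, y) ≤ w → rs (1, x, y) = r (x, y)
  rf : ∀ s x y, ‖x‖ = 1 → ρ (x, y) ≤ 0 → rs (s, x, y) = y
  rr : ∀ s ∈ Icc (0 : ℝ) 1, ∀ x y, ‖x‖ = 1 → ρ (x, y) ≤ w → ρ (x, rs (s, x, y)) ≤ ρ (x, y)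
  kg : ∀ s ∈ Icc (0 : ℝ) 1, ∀ x y z, ‖x‖ = 1 → ρ (ξ (x, z), y) ≤ w →
    γ (x, WithLp.toLp 2 (k (s, ξ (x, z), y), z)) ≤ γ (x, WithLp.toLp 2 (y, z))
  rg : ∀ s ∈ Icc (0 : ℝ) 1, ∀ x y z, ‖x‖ = 1 → ρ (ξ (x, z), y) ≤ w →
    γ (x, WithLp.toLp 2 (rs (s, ξ (x, z), y), z)) ≤ γ (x, WithLp.toLp 2 (y, z))
end

/-- blocks A0 and C: the embedding, and the dynamics produced by an isotopy -/
def AC : Prop := ∀ Φ : A.Fam, ∃ ι, IsExactLagEmbedding 11 ι ∧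
  ∀ F : ℝ → Sph 9 × Sph 11 → Amb 11, Iso F → F 0 = zeroSection 11 → range (F 1) = range ι →
    ∃ (M : ℕ) (C : ℝ) (B : Eu M →L[ℝ] Eu M) (ξ : _) (γ : _) (gr : _) (zz : _) (k rs : _),
      Dyn Φ.ρ Φ.r Φ.w C B ξ γ gr zz ∧ Kf Φ.ρ Φ.r Φ.w C ξ γ k rs

/-- the homotopy from the end of the chain to `r × (1 - ε B)` -/
def HOM (ev : Ev) : Prop := ∀ (Φ : A.Fam) (M : ℕ) (C : ℝ) (B : Eu M →L[ℝ] Eu M) ξ γ gr zz,
  Dyn Φ.ρ Φ.r Φ.w C B ξ γ gr zz → ∃ ε₀ > 0, ∀ ε, 0 < ε → ε ≤ ε₀ →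
    ev _ (fe Φ.r B ξ gr ε) = ev _ (f0 Φ.r B ε)

/-- removing the linear factor -/
def STB (ev : Ev) : Prop := ∀ (Φ : A.Fam) (M : ℕ) (B : Eu M →L[ℝ] Eu M),
  (∀ z z', ⟪B z, z'⟫_ℝ = ⟪z, B z'⟫_ℝ) → (∀ z, B (B z) = z) → ∀ ε, 0 < ε → ε ≤ 1 / 2 →
    ev _ (f0 Φ.r B ε) = ev _ (fr Φ.r) ∨ ev _ (f0 Φ.r B ε) = -ev _ (fr Φ.r)

/-- one non-degenerate critical point: the invariant vanishes -/
def END (ev : Ev) : Prop := ∀ (Φ : A.Fam) (M : ℕ) (C : ℝ) (B : Eu M →L[ℝ] Eu M) ξ γ gr zz k rs,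
  Dyn Φ.ρ Φ.r Φ.w C B ξ γ gr zz → Kf Φ.ρ Φ.r Φ.w C ξ γ k rs → ∃ ε₀ > 0, ∀ ε, 0 < ε → ε ≤ ε₀ →
    ev _ (fe Φ.r B ξ gr ε) = 0

/-- the example -/
def EX (ev : Ev) : Prop := ∃ Φ : A.Fam, ev _ (fr Φ.r) = half

theorem top (ev : Ev) (h1 : AC) (h2 : HOM ev) (h3 : STB ev) (h4 : END ev) (h5 : EX ev) :
    ∃ m : ℕ, Odd m ∧ ∃ ι : Sph 9 × Sph m → Amb m, IsExactLagEmbedding m ι ∧
      ¬ ∃ F : ℝ → Sph 9 × Sph m → Amb m,
          ContMDiff (𝓘(ℝ, ℝ).prod ((𝓡 9).prod (𝓡 m))) 𝓘(ℝ, Amb m) ∞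
              (fun p : ℝ × (Sph 9 × Sph m) => F p.1 p.2) ∧
            (∀ s, IsExactLagEmbedding m (F s)) ∧ F 0 = zeroSection m ∧
            Set.range (F 1) = Set.range ι := by
  obtain ⟨Φ, hΦ⟩ := h5
  obtain ⟨ι, hι, h⟩ := h1 Φ
  refine ⟨11, by decide, ι, hι, ?_⟩
  rintro ⟨F, a, b, c, d⟩
  obtain ⟨M, C, B, ξ, γ, gr, zz, k, rs, hD, hK⟩ := h F ⟨a, b⟩ c d
  obtain ⟨e1, p1, k1⟩ := h2 Φ M C B ξ γ gr zz hD
  obtain ⟨e2, p2, k2⟩ := h4 Φ M C B ξ γ gr zz k rs hD hK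
  have p : 0 < min (min e1 e2) (1 / 2) := by positivity
  have u := k1 _ p ((min_le_left _ _).trans (min_le_left _ _))
  have v := k2 _ p ((min_le_left _ _).trans (min_le_right _ _))
  have z : ev _ (f0 Φ.r B (min (min e1 e2) (1 / 2))) = 0 := u ▸ v
  rcases h3 Φ M B hD.sy hD.sq _ p (min_le_right _ _) with t | t
  · exact half_ne (hΦ ▸ t ▸ z)
  · exact half_ne (by rw [← hΦ, ← neg_eq_zero, ← t, z])

end Crest.Agent.N218.Sk
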